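import Vale.Agent.Lib.P110F.Defs

/-!
P130B part I (flat 0-1 sums): definitions.
-/

namespace Vale.Agent.P130B

open MeasureTheory Vale.Agent.P110F
open scoped ComplexConjugate

/-- `Q` is a real trigonometric polynomial of degree at most `d`. -/
def IsTrig (d : ℕ) (Q : ℝ → ℝ) : Prop :=
  ∃ q : ℤ → ℂ, ∀ x, (Q x : ℂ) = ∑ k ∈ Finset.Icc (-(d : ℤ)) d, q k * e1 (k * x)

/-- `Q` is a nonnegative trigonometric polynomial of degree at most `d` with integral `1`. -/
structure TrigW (d : ℕ) (Q : ℝ → ℝ) : Prop where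
  trig : IsTrig d Q
  nonneg : ∀ x, 0 ≤ Q x
  one : ∫ x in (0 : ℝ)..1, Q x = 1

/-- sign of a Boolean -/
noncomputable def sgn (b : Bool) : ℝ := if b then 1 else -1

/-- all `R` signs of block `a` are `+` -/
def Win (R : ℕ) (σ : ℕ → Bool) (a : ℕ) : Prop := ∀ r < R, σ (a * R + r) = true

open Classical in
/-- the first winning block, `0` if there is none up to `K` -/
noncomputable def AA (K R : ℕ) (σ : ℕ → Bool) : ℕ :=
  if h : ∃ a, a ≤ K ∧ Win R σ a then Nat.find h else 0

open Classical in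
/-- the coefficient of the sign number `q = a R + r` -/
noncomputable def CC (R q : ℕ) (σ : ℕ → Bool) : ℝ :=
  if (∀ b < q / R, ¬ Win R σ b) ∧ ∀ i < q % R, σ (q / R * R + i) = true then
    (1 / 2 : ℝ) ^ (R - q % R) else 0

/-- no winning block up to `K` -/
def NoWin (K R : ℕ) (σ : ℕ → Bool) : Prop := ∀ a ≤ K, ¬ Win R σ a

/-- extension of a finite sequence of signs -/
def ext {n : ℕ} (τ : Fin n → Bool) (i : ℕ) : Bool := if h : i < n then τ ⟨i, h⟩ else false

/-- a finite real expansion with labels -/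
noncomputable def PolS {k : ℕ} (Sp : Finset (Fin k → ℤ)) (c : (Fin k → ℤ) → ℂ)
    (a : (Fin k → ℤ) → ℕ) (θ : ℝ) (x : UnitAddTorus (Fin k)) : ℂ :=
  ∑ m ∈ Sp, e1 ((a m : ℝ) * θ) * (c m * UnitAddTorus.mFourier m x +
    conj (c m) * UnitAddTorus.mFourier (-m) x)

/-- projections of a product torus -/
def pfst {k l : ℕ} (x : UnitAddTorus (Fin (k + l))) : UnitAddTorus (Fin k) :=
  fun i => x (Fin.castAdd l i)

def psnd {k l : ℕ} (x : UnitAddTorus (Fin (k + l))) : UnitAddTorus (Fin l) :=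
  fun i => x (Fin.natAdd k i)

/-- joined frequency vectors -/
def jn {k l : ℕ} (m : Fin k → ℤ) (m' : Fin l → ℤ) : Fin (k + l) → ℤ := Fin.append m m'

end Vale.Agent.P130B
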