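import Vale.Agent.Lib.P130B.F.Defs

/-!
# P130B part I, module S1

int_scale: x = (i+u)/h: the integral is int_0^1 Phi(u) (1/h) sum_(i<h) Q((i+u)/h) du, and (1/h) sum_i Q((i+u)/h) = int Q = 1 because deg Q < h (sum of e1(k i / h) over i < h vanishes for 0 < |k| < h).
-/

namespace Vale.Agent.P130B

open MeasureTheory Filter Topology Vale.Agent.P110F
open scoped ComplexConjugate

private theorem S1_cont (k : ℤ) : Continuous fun x : ℝ => e1 (k * x) :=
  continuous_e1.comp (continuous_const.mul continuous_id)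

theorem IsTrig.continuous {d : ℕ} {Q : ℝ → ℝ} (hQ : IsTrig d Q) : Continuous Q := by
  obtain ⟨q, hq⟩ := hQ
  have h1 : Q = fun x => (∑ k ∈ Finset.Icc (-(d : ℤ)) d, q k * e1 (k * x)).re := by
    funext x
    rw [← hq x, Complex.ofReal_re]
  rw [h1]
  exact Complex.continuous_re.comp
    (continuous_finsetSum _ fun k _ => continuous_const.mul (S1_cont k))

private theorem S1_ne {h : ℕ} (hh : 0 < h) {k : ℤ} (hk : k ≠ 0) (hkh : |k| < h) :
    e1 ((k : ℝ) / h) ≠ 1 := by
  intro h1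
  unfold e1 at h1
  obtain ⟨n, hn⟩ := Complex.exp_eq_one_iff.1 h1
  have h2 : (2 * Real.pi * Complex.I : ℂ) ≠ 0 := Complex.two_pi_I_ne_zero
  have h3 : (((k : ℝ) / h : ℝ) : ℂ) = n := by
    rw [mul_comm (n : ℂ)] at hn
    exact mul_left_cancel₀ h2 hn
  have h4 : (k : ℝ) / h = n := by exact_mod_cast h3
  have hh0 : (h : ℝ) ≠ 0 := by positivity
  have h5 : (k : ℝ) = n * h := by
    rw [div_eq_iff hh0] at h4
    exact h4
  have h6 : k = n * h := by exact_mod_cast h5
  have h7 : n ≠ 0 := by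
    rintro rfl
    rw [zero_mul] at h6
    exact hk h6
  have h8 : 1 ≤ |n| := Int.one_le_abs h7
  rw [h6, abs_mul, Nat.abs_cast] at hkh
  nlinarith

private theorem S1_zero {h : ℕ} (hh : 0 < h) {k : ℤ} (hk : k ≠ 0) (hkh : |k| < h) {Φ : ℝ → ℝ}
    (hper : ∀ x, Φ (x + 1) = Φ x) :
    ∫ x in (0 : ℝ)..1, e1 (k * x) * (Φ (h * x) : ℂ) = 0 := by
  have hh0 : (h : ℝ) ≠ 0 := by positivity
  set F : ℝ → ℂ := fun x => e1 (k * x) * (Φ (h * x) : ℂ) with hF
  have hP : Function.Periodic Φ 1 := hper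
  have hFper : Function.Periodic F 1 := by
    intro x
    rw [hF]
    simp only
    have e2 : e1 (k * (x + 1)) = e1 (k * x) := by
      rw [mul_add, mul_one, e1_add, e1_int, mul_one]
    have e3 : Φ (h * (x + 1)) = Φ (h * x) := by
      have := hP.nat_mul h (h * x)
      rw [mul_one] at this
      rw [mul_add, mul_one]
      exact this
    rw [e2, e3]
  have hshift : ∀ x, F (x + 1 / h) = e1 ((k : ℝ) / h) * F x := by
    intro x
    rw [hF]
    simp only
    have e2 : e1 (k * (x + 1 / h)) = e1 ((k : ℝ) / h) * e1 (k * x) := by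
      rw [← e1_add]
      congr 1
      ring
    have e3 : Φ (h * (x + 1 / h)) = Φ (h * x) := by
      rw [mul_add, mul_one_div_cancel hh0]
      exact hper _
    rw [e2, e3, mul_assoc]
  have h1 : ∫ x in (0 : ℝ)..1, F (x + 1 / h) = ∫ x in (0 : ℝ)..1, F x := by
    rw [intervalIntegral.integral_comp_add_right F (1 / (h : ℝ)), zero_add, add_comm (1 : ℝ)]
    rw [hFper.intervalIntegral_add_eq (1 / (h : ℝ)) 0, zero_add]
  have h2 : ∫ x in (0 : ℝ)..1, F (x + 1 / h) = e1 ((k : ℝ) / h) * ∫ x in (0 : ℝ)..1, F x := by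
    simp_rw [hshift]
    exact intervalIntegral.integral_const_mul _ _
  rw [h2] at h1
  have h3 : (e1 ((k : ℝ) / h) - 1) * ∫ x in (0 : ℝ)..1, F x = 0 := by
    rw [sub_mul, h1, one_mul, sub_self]
  rcases mul_eq_zero.1 h3 with h4 | h4
  · exact absurd (sub_eq_zero.1 h4) (S1_ne hh hk hkh)
  · exact h4

private theorem S1_dil {h : ℕ} (hh : 0 < h) {Φ : ℝ → ℝ} (hΦ : Continuous Φ)
    (hper : ∀ x, Φ (x + 1) = Φ x) :
    ∫ x in (0 : ℝ)..1, Φ (h * x) = ∫ x in (0 : ℝ)..1, Φ x := by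
  have hh0 : (h : ℝ) ≠ 0 := by positivity
  have hP : Function.Periodic Φ 1 := hper
  rw [intervalIntegral.integral_comp_mul_left Φ hh0, mul_zero, mul_one]
  have h1 := hP.intervalIntegral_add_zsmul_eq (h : ℤ) 0
    (fun t₁ t₂ => hΦ.intervalIntegrable t₁ t₂)
  rw [zero_add, zero_add, zsmul_eq_mul, mul_one, Int.cast_natCast] at h1
  rw [h1, zsmul_eq_mul, Int.cast_natCast, smul_eq_mul, inv_mul_cancel_left₀ hh0]

theorem int_scale {d h : ℕ} (hd : d < h) {Q : ℝ → ℝ} (hQ : TrigW d Q) {Φ : ℝ → ℝ}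
    (hΦ : Continuous Φ) (hper : ∀ x, Φ (x + 1) = Φ x) :
    ∫ x in (0 : ℝ)..1, Q x * Φ (h * x) = ∫ x in (0 : ℝ)..1, Φ x := by
  have hh : 0 < h := (Nat.zero_le d).trans_lt hd
  obtain ⟨q, hq⟩ := hQ.trig
  have hΦc : Continuous fun x : ℝ => (Φ (h * x) : ℂ) :=
    Complex.continuous_ofReal.comp (hΦ.comp (continuous_const.mul continuous_id))
  have hmem : (0 : ℤ) ∈ Finset.Icc (-(d : ℤ)) d := by
    rw [Finset.mem_Icc]
    omega
  have hq0 : q 0 = 1 := by
    have h1 : ((∫ x in (0 : ℝ)..1, Q x : ℝ) : ℂ) = q 0 := by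
      rw [← intervalIntegral.integral_ofReal]
      simp_rw [hq]
      have hint : ∀ k ∈ Finset.Icc (-(d : ℤ)) d,
          IntervalIntegrable (fun x : ℝ => q k * e1 (k * x)) volume 0 1 := fun k _ =>
        (continuous_const.mul (S1_cont k)).intervalIntegrable _ _
      rw [intervalIntegral.integral_finsetSum hint]
      rw [Finset.sum_eq_single (0 : ℤ)]
      · rw [intervalIntegral.integral_const_mul, integral_e1_int, if_pos rfl, mul_one]
      · intro k _ hk
        rw [intervalIntegral.integral_const_mul, integral_e1_int, if_neg hk, mul_zero]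
      · intro h
        exact absurd hmem h
    rw [← h1, hQ.one, Complex.ofReal_one]
  have h2 : ((∫ x in (0 : ℝ)..1, Q x * Φ (h * x) : ℝ) : ℂ) =
      ((∫ x in (0 : ℝ)..1, Φ x : ℝ) : ℂ) := by
    rw [← intervalIntegral.integral_ofReal]
    have h3 : ∀ x : ℝ, ((Q x * Φ (h * x) : ℝ) : ℂ) =
        ∑ k ∈ Finset.Icc (-(d : ℤ)) d, q k * (e1 (k * x) * (Φ (h * x) : ℂ)) := by
      intro x
      rw [Complex.ofReal_mul, hq, Finset.sum_mul]
      exact Finset.sum_congr rfl fun k _ => mul_assoc _ _ _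
    simp_rw [h3]
    have hint : ∀ k ∈ Finset.Icc (-(d : ℤ)) d,
        IntervalIntegrable (fun x : ℝ => q k * (e1 (k * x) * (Φ (h * x) : ℂ))) volume 0 1 :=
      fun k _ => (continuous_const.mul ((S1_cont k).mul hΦc)).intervalIntegrable _ _
    rw [intervalIntegral.integral_finsetSum hint]
    rw [Finset.sum_eq_single (0 : ℤ)]
    · rw [intervalIntegral.integral_const_mul, hq0, one_mul]
      have h4 : ∀ x : ℝ, e1 (((0 : ℤ) : ℝ) * x) * (Φ (h * x) : ℂ) = ((Φ (h * x) : ℝ) : ℂ) := by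
        intro x
        rw [Int.cast_zero, zero_mul, e1_zero, one_mul]
      simp_rw [h4]
      rw [intervalIntegral.integral_ofReal, S1_dil hh hΦ hper]
    · intro k hk hk0
      rw [intervalIntegral.integral_const_mul, S1_zero hh hk0 _ hper, mul_zero]
      rw [Finset.mem_Icc] at hk
      rw [abs_lt]
      constructor <;> omega
    · intro h
      exact absurd hmem h
  exact_mod_cast h2

end Vale.Agent.P130B
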