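import Vale.Agent.Lib.P130B.F.Defs

/-!
# P130B part I, module S2

int_orth: expand the square; the term j <> j2 is the integral of a trig polynomial of degree <= d+K times e1((j-j2) h x), zero because |(j-j2) h| > d+K (integral_e1_int).
-/

namespace Vale.Agent.P130B

open MeasureTheory Filter Topology Vale.Agent.P110F
open scoped ComplexConjugate

private theorem S2_contQ {d : ℕ} {Q : ℝ → ℝ} (hQ : IsTrig d Q) : Continuous Q := by
  obtain ⟨q, hq⟩ := hQ
  have h1 : Continuous fun x : ℝ => (Q x : ℂ) := by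
    have h2 : (fun x : ℝ => (Q x : ℂ)) =
        fun x => ∑ k ∈ Finset.Icc (-(d : ℤ)) d, q k * e1 (k * x) := funext hq
    rw [h2]
    refine continuous_finsetSum _ fun k _ => continuous_const.mul ?_
    exact continuous_e1.comp (continuous_const.mul continuous_id)
  exact Complex.continuous_re.comp h1

private theorem S2_contb {K : ℕ} {b : ℝ → ℂ}
    (hb : ∃ β : ℕ → ℂ, ∀ x, b x = ∑ l ∈ Finset.range (K + 1), β l * e1 (l * x)) :
    Continuous b := by
  obtain ⟨β, hβ⟩ := hb
  have h2 : b = fun x => ∑ l ∈ Finset.range (K + 1), β l * e1 (l * x) := funext hβ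
  rw [h2]
  refine continuous_finsetSum _ fun k _ => continuous_const.mul ?_
  exact continuous_e1.comp (continuous_const.mul continuous_id)

private theorem S2_key (j j' h : ℕ) (x : ℝ) (k : ℤ) (l l' : ℕ) :
    e1 (k * x) * (e1 (l * x) * e1 (((j * h : ℕ) : ℝ) * x)) *
      (conj (e1 (l' * x)) * conj (e1 (((j' * h : ℕ) : ℝ) * x))) =
      e1 (((k + l - l' + (j * h : ℕ) - (j' * h : ℕ) : ℤ) : ℝ) * x) := by
  rw [← e1_neg, ← e1_neg, ← e1_add, ← e1_add, ← e1_add, ← e1_add]
  congr 1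
  push_cast
  ring

private theorem S2_off {d h K : ℕ} (hd : d + K < h) {Q : ℝ → ℝ} (hQ : IsTrig d Q)
    {b b' : ℝ → ℂ}
    (hb : ∃ β : ℕ → ℂ, ∀ x, b x = ∑ l ∈ Finset.range (K + 1), β l * e1 (l * x))
    (hb' : ∃ β : ℕ → ℂ, ∀ x, b' x = ∑ l ∈ Finset.range (K + 1), β l * e1 (l * x))
    {j j' : ℕ} (hj : j ≠ j') :
    ∫ x in (0 : ℝ)..1, (Q x : ℂ) * ((b x * e1 (((j * h : ℕ) : ℝ) * x)) *
      conj (b' x * e1 (((j' * h : ℕ) : ℝ) * x))) = 0 := by
  obtain ⟨q, hq⟩ := hQ
  obtain ⟨β, hβ⟩ := hb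
  obtain ⟨β', hβ'⟩ := hb'
  have h1 : ∀ x : ℝ, (Q x : ℂ) * ((b x * e1 (((j * h : ℕ) : ℝ) * x)) *
      conj (b' x * e1 (((j' * h : ℕ) : ℝ) * x))) =
      ∑ k ∈ Finset.Icc (-(d : ℤ)) d, ∑ l ∈ Finset.range (K + 1), ∑ l' ∈ Finset.range (K + 1),
        (q k * β l * conj (β' l')) *
          e1 (((k + l - l' + (j * h : ℕ) - (j' * h : ℕ) : ℤ) : ℝ) * x) := by
    intro x
    rw [hq, hβ, hβ', map_mul, map_sum, Finset.sum_mul]
    refine Finset.sum_congr rfl fun k _ => ?_
    rw [Finset.sum_mul, Finset.sum_mul, Finset.sum_mul, Finset.mul_sum]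
    refine Finset.sum_congr rfl fun l _ => ?_
    rw [Finset.mul_sum, Finset.mul_sum]
    refine Finset.sum_congr rfl fun l' _ => ?_
    rw [map_mul, ← S2_key j j' h x k l l']
    ring
  simp_rw [h1]
  have hint : ∀ (c : ℂ) (z : ℤ), IntervalIntegrable (fun x : ℝ => c * e1 ((z : ℝ) * x))
      volume 0 1 := fun c z => Continuous.intervalIntegrable
    (continuous_const.mul (continuous_e1.comp (continuous_const.mul continuous_id))) _ _
  rw [intervalIntegral.integral_finsetSum fun k _ => ?_]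
  · refine Finset.sum_eq_zero fun k hk => ?_
    rw [intervalIntegral.integral_finsetSum fun l _ => ?_]
    · refine Finset.sum_eq_zero fun l hl => ?_
      rw [intervalIntegral.integral_finsetSum fun l' _ => hint _ _]
      refine Finset.sum_eq_zero fun l' hl' => ?_
      rw [intervalIntegral.integral_const_mul, integral_e1_int, if_neg, mul_zero]
      rw [Finset.mem_Icc] at hk
      rw [Finset.mem_range] at hl hl'
      intro hz
      have hd' : (d : ℤ) + K < h := by exact_mod_cast hd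
      push_cast at hz
      rcases lt_or_gt_of_ne hj with hlt | hlt
      · have h2 : (j : ℤ) + 1 ≤ j' := by exact_mod_cast hlt
        have h3 : (h : ℤ) ≤ ((j' : ℤ) - j) * h := by nlinarith [Int.natCast_nonneg h]
        have h4 : (k : ℤ) + l - l' = ((j' : ℤ) - j) * h := by linarith
        have h5 : (l : ℤ) ≤ K := by exact_mod_cast Nat.lt_succ_iff.1 hl
        have h6 : (0 : ℤ) ≤ l' := Int.natCast_nonneg _
        linarith [hk.2]
      · have h2 : (j' : ℤ) + 1 ≤ j := by exact_mod_cast hlt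
        have h3 : (h : ℤ) ≤ ((j : ℤ) - j') * h := by nlinarith [Int.natCast_nonneg h]
        have h4 : (l' : ℤ) - k - l = ((j : ℤ) - j') * h := by linarith
        have h5 : (l' : ℤ) ≤ K := by exact_mod_cast Nat.lt_succ_iff.1 hl'
        have h6 : (0 : ℤ) ≤ l := Int.natCast_nonneg _
        linarith [hk.1]
    · exact Continuous.intervalIntegrable (continuous_finsetSum _ fun l' _ =>
        continuous_const.mul (continuous_e1.comp (continuous_const.mul continuous_id))) _ _
  · exact Continuous.intervalIntegrable (continuous_finsetSum _ fun l _ =>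
      continuous_finsetSum _ fun l' _ =>
        continuous_const.mul (continuous_e1.comp (continuous_const.mul continuous_id))) _ _

theorem int_orth {d h K N : ℕ} (hd : d + K < h) {Q : ℝ → ℝ} (hQ : IsTrig d Q)
    (b : ℕ → ℝ → ℂ)
    (hb : ∀ j, ∃ β : ℕ → ℂ, ∀ x, b j x = ∑ l ∈ Finset.range (K + 1), β l * e1 (l * x)) :
    ∫ x in (0 : ℝ)..1, Q x * ‖∑ j ∈ Finset.range N, b j x * e1 (((j * h : ℕ) : ℝ) * x)‖ ^ 2 =
      ∑ j ∈ Finset.range N, ∫ x in (0 : ℝ)..1, Q x * ‖b j x‖ ^ 2 := by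
  have hQc : Continuous Q := S2_contQ hQ
  have hbc : ∀ j, Continuous (b j) := fun j => S2_contb (hb j)
  have hec : ∀ j : ℕ, Continuous fun x : ℝ => e1 (((j * h : ℕ) : ℝ) * x) := fun j =>
    continuous_e1.comp (continuous_const.mul continuous_id)
  have hterm : ∀ j j' : ℕ, Continuous fun x : ℝ => (Q x : ℂ) *
      ((b j x * e1 (((j * h : ℕ) : ℝ) * x)) * conj (b j' x * e1 (((j' * h : ℕ) : ℝ) * x))) :=
    fun j j' => (Complex.continuous_ofReal.comp hQc).mul
      (((hbc j).mul (hec j)).mul (Complex.continuous_conj.comp ((hbc j').mul (hec j'))))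
  have h1 : ∀ x : ℝ, ((Q x * ‖∑ j ∈ Finset.range N, b j x * e1 (((j * h : ℕ) : ℝ) * x)‖ ^ 2 : ℝ) :
      ℂ) = ∑ j ∈ Finset.range N, ∑ j' ∈ Finset.range N, (Q x : ℂ) *
      ((b j x * e1 (((j * h : ℕ) : ℝ) * x)) * conj (b j' x * e1 (((j' * h : ℕ) : ℝ) * x))) := by
    intro x
    rw [Complex.ofReal_mul, Complex.ofReal_pow, ← Complex.mul_conj', map_sum,
      Finset.sum_mul_sum, Finset.mul_sum]
    refine Finset.sum_congr rfl fun j _ => ?_
    rw [Finset.mul_sum]
  have h2 : ((∫ x in (0 : ℝ)..1, Q x * ‖∑ j ∈ Finset.range N,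
      b j x * e1 (((j * h : ℕ) : ℝ) * x)‖ ^ 2 : ℝ) : ℂ) =
      ((∑ j ∈ Finset.range N, ∫ x in (0 : ℝ)..1, Q x * ‖b j x‖ ^ 2 : ℝ) : ℂ) := by
    rw [← intervalIntegral.integral_ofReal]
    simp_rw [h1]
    rw [intervalIntegral.integral_finsetSum fun j _ => Continuous.intervalIntegrable
      (continuous_finsetSum _ fun j' _ => hterm j j') _ _, Complex.ofReal_sum]
    refine Finset.sum_congr rfl fun j hj => ?_
    rw [intervalIntegral.integral_finsetSum fun j' _ => (hterm j j').intervalIntegrable _ _,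
      Finset.sum_eq_single_of_mem j hj fun j' _ hne => S2_off hd hQ (hb j) (hb j') (Ne.symm hne),
      ← intervalIntegral.integral_ofReal]
    refine intervalIntegral.integral_congr fun x _ => ?_
    rw [Complex.mul_conj', norm_mul, norm_e1, mul_one, Complex.ofReal_mul, Complex.ofReal_pow]
  exact_mod_cast h2

end Vale.Agent.P130B
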