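import Vale.Agent.Lib.P130B.F.Defs

/-!
# P130B part I, module S2b

sin^2(pi x) = (2 - e1 x - e1(-x))/4.
-/

namespace Vale.Agent.P130B

open MeasureTheory Filter Topology Vale.Agent.P110F
open scoped ComplexConjugate

private lemma S2b_shift (d : ℕ) (q : ℤ → ℂ) (s : ℤ) (h1 : -1 ≤ s) (h2 : s ≤ 1) (x : ℝ) :
    ∑ j ∈ Finset.Icc (-((d + 1 : ℕ) : ℤ)) ((d + 1 : ℕ) : ℤ),
      (if j - s ∈ Finset.Icc (-(d : ℤ)) d then q (j - s) else 0) * e1 (j * x) =
      ∑ k ∈ Finset.Icc (-(d : ℤ)) d, q k * e1 (((k + s : ℤ) : ℝ) * x) := by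
  simp only [ite_mul, zero_mul]
  rw [← Finset.sum_filter]
  refine Finset.sum_nbij' (fun j => j - s) (fun k => k + s) ?_ ?_ ?_ ?_ ?_
  · intro j hj
    exact (Finset.mem_filter.1 hj).2
  · intro k hk
    rw [Finset.mem_Icc] at hk
    rw [Finset.mem_filter, Finset.mem_Icc, Finset.mem_Icc]
    push_cast
    omega
  · intro j _
    ring
  · intro k _
    ring
  · intro j _
    rw [sub_add_cancel]

private lemma S2b_sin (x : ℝ) :
    ((Real.sin (Real.pi * x) ^ 2 : ℝ) : ℂ) = 1 / 2 - e1 x / 4 - e1 (-x) / 4 := by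
  have h1 : ∀ y : ℝ, e1 y = Real.cos (2 * Real.pi * y) + Real.sin (2 * Real.pi * y) * Complex.I := by
    intro y
    unfold e1
    rw [show (2 * Real.pi * Complex.I * y : ℂ) = ((2 * Real.pi * y : ℝ) : ℂ) * Complex.I by
      push_cast; ring, Complex.exp_mul_I, ← Complex.ofReal_cos, ← Complex.ofReal_sin]
  have h2 : 2 * Real.pi * -x = -(2 * Real.pi * x) := by ring
  rw [h1, h1, h2, Real.cos_neg, Real.sin_neg, Real.sin_sq_eq_half_sub,
    show 2 * (Real.pi * x) = 2 * Real.pi * x by ring]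
  push_cast
  ring

theorem IsTrig.mul_sin {d : ℕ} {Q : ℝ → ℝ} (hQ : IsTrig d Q) :
    IsTrig (d + 1) (fun x => Q x * Real.sin (Real.pi * x) ^ 2) := by
  obtain ⟨q, hq⟩ := hQ
  refine ⟨fun j => (if j - 0 ∈ Finset.Icc (-(d : ℤ)) d then q (j - 0) else 0) / 2 -
    (if j - 1 ∈ Finset.Icc (-(d : ℤ)) d then q (j - 1) else 0) / 4 -
    (if j - (-1) ∈ Finset.Icc (-(d : ℤ)) d then q (j - (-1)) else 0) / 4, fun x => ?_⟩
  have h1 : ∀ j : ℤ, ((if j - 0 ∈ Finset.Icc (-(d : ℤ)) d then q (j - 0) else 0) / 2 -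
      (if j - 1 ∈ Finset.Icc (-(d : ℤ)) d then q (j - 1) else 0) / 4 -
      (if j - (-1) ∈ Finset.Icc (-(d : ℤ)) d then q (j - (-1)) else 0) / 4) * e1 (j * x) =
      (1 / 2) * ((if j - 0 ∈ Finset.Icc (-(d : ℤ)) d then q (j - 0) else 0) * e1 (j * x)) -
      (1 / 4) * ((if j - 1 ∈ Finset.Icc (-(d : ℤ)) d then q (j - 1) else 0) * e1 (j * x)) -
      (1 / 4) * ((if j - (-1) ∈ Finset.Icc (-(d : ℤ)) d then q (j - (-1)) else 0) *
        e1 (j * x)) := by
    intro j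
    ring
  simp_rw [h1]
  rw [Finset.sum_sub_distrib, Finset.sum_sub_distrib, ← Finset.mul_sum, ← Finset.mul_sum,
    ← Finset.mul_sum, S2b_shift d q 0 (by norm_num) (by norm_num),
    S2b_shift d q 1 (by norm_num) (by norm_num), S2b_shift d q (-1) (by norm_num) (by norm_num),
    Finset.mul_sum, Finset.mul_sum, Finset.mul_sum, ← Finset.sum_sub_distrib,
    ← Finset.sum_sub_distrib]
  rw [Complex.ofReal_mul, hq, S2b_sin, Finset.sum_mul]
  refine Finset.sum_congr rfl fun k _ => ?_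
  have h2 : e1 (((k + 1 : ℤ) : ℝ) * x) = e1 (k * x) * e1 x := by
    rw [← e1_add]
    congr 1
    push_cast
    ring
  have h3 : e1 (((k + -1 : ℤ) : ℝ) * x) = e1 (k * x) * e1 (-x) := by
    rw [← e1_add]
    congr 1
    push_cast
    ring
  rw [h2, h3, add_zero]
  ring

end Vale.Agent.P130B
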