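import Vale.Agent.Lib.P130B.F.Defs

/-!
# P130B part I, module S4

weighted copy of P110F perturb; | |f+g|^2/N - 1 | <= | |f|^2/Lambda - 1 | + tau + (|g|^2 + 2|f||g|)/N; Cauchy-Schwarz with weight Q on [eta,1-eta].
-/

namespace Vale.Agent.P130B

open MeasureTheory Filter Topology Vale.Agent.P110F
open scoped ComplexConjugate

private lemma S4_ptwise (a b : ℂ) {Λ N τ ρ : ℝ}
    (hΛ : 0 < Λ) (hN : Λ ≤ N) (hN2 : N ≤ (1 + τ) * Λ) (hτ : 0 ≤ τ) (hρ : 0 < ρ) :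
    |‖a + b‖ ^ 2 / N - 1| ≤
      (1 + ρ) * |‖a‖ ^ 2 / Λ - 1| + (τ + ρ) + (1 / ρ + 1) * (‖b‖ ^ 2 / N) := by
  have hN0 : 0 < N := lt_of_lt_of_le hΛ hN
  set D := |‖a‖ ^ 2 / Λ - 1| with hD
  have hD0 : 0 ≤ D := abs_nonneg _
  -- the difference of the two squares
  have h1 : |‖a + b‖ ^ 2 - ‖a‖ ^ 2| ≤ 2 * ‖a‖ * ‖b‖ + ‖b‖ ^ 2 := by
    have e1 : ‖a + b‖ ≤ ‖a‖ + ‖b‖ := norm_add_le a b
    have e2 : ‖a‖ - ‖b‖ ≤ ‖a + b‖ := by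
      have := norm_sub_norm_le a (-b)
      simpa using this
    have e3 := norm_nonneg a
    have e4 := norm_nonneg b
    have e5 := norm_nonneg (a + b)
    rw [abs_le]
    constructor
    · rcases le_total ‖b‖ ‖a‖ with h | h
      · nlinarith
      · nlinarith
    · nlinarith
  have h2 : 2 * ‖a‖ * ‖b‖ ≤ ρ * ‖a‖ ^ 2 + 1 / ρ * ‖b‖ ^ 2 := by
    have hs : 0 ≤ (ρ * ‖a‖ - ‖b‖) ^ 2 / ρ := div_nonneg (sq_nonneg _) hρ.le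
    have : (ρ * ‖a‖ - ‖b‖) ^ 2 / ρ = ρ * ‖a‖ ^ 2 - 2 * ‖a‖ * ‖b‖ + 1 / ρ * ‖b‖ ^ 2 := by
      field_simp
      ring
    linarith
  have h3 : ‖a‖ ^ 2 ≤ Λ * (1 + D) := by
    have h := le_abs_self (‖a‖ ^ 2 / Λ - 1)
    rw [← hD] at h
    have : ‖a‖ ^ 2 / Λ ≤ 1 + D := by linarith
    rw [div_le_iff₀ hΛ] at this
    linarith
  have h4 : ‖a‖ ^ 2 / N ≤ 1 + D := by
    rw [div_le_iff₀ hN0]
    nlinarith
  -- the main part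
  have h5 : |‖a‖ ^ 2 / N - 1| ≤ D + τ := by
    have e : ‖a‖ ^ 2 / N - 1 = (Λ / N) * (‖a‖ ^ 2 / Λ - 1) + (Λ / N - 1) := by
      field_simp
      ring
    have hr0 : 0 ≤ Λ / N := (div_pos hΛ hN0).le
    have hr1 : Λ / N ≤ 1 := (div_le_one hN0).2 hN
    have hr2 : 1 - Λ / N ≤ τ := by
      have : (N - Λ) / N ≤ τ := by
        rw [div_le_iff₀ hN0]
        nlinarith
      have e2 : (N - Λ) / N = 1 - Λ / N := by field_simp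
      linarith
    rw [e]
    calc |(Λ / N) * (‖a‖ ^ 2 / Λ - 1) + (Λ / N - 1)|
        ≤ |(Λ / N) * (‖a‖ ^ 2 / Λ - 1)| + |Λ / N - 1| := abs_add_le _ _
      _ = (Λ / N) * D + (1 - Λ / N) := by
          rw [abs_mul, abs_of_nonneg hr0, abs_sub_comm (Λ / N) 1,
            abs_of_nonneg (by linarith : 0 ≤ 1 - Λ / N)]
      _ ≤ D + τ := by nlinarith
  have e : ‖a + b‖ ^ 2 / N - 1 = (‖a‖ ^ 2 / N - 1) + (‖a + b‖ ^ 2 - ‖a‖ ^ 2) / N := by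
    field_simp
    ring
  have h6 : |(‖a + b‖ ^ 2 - ‖a‖ ^ 2) / N| ≤ ρ * (1 + D) + (1 / ρ + 1) * (‖b‖ ^ 2 / N) := by
    rw [abs_div, abs_of_pos hN0]
    calc |‖a + b‖ ^ 2 - ‖a‖ ^ 2| / N ≤ (ρ * ‖a‖ ^ 2 + 1 / ρ * ‖b‖ ^ 2 + ‖b‖ ^ 2) / N := by
          apply div_le_div_of_nonneg_right _ hN0.le
          linarith
      _ = ρ * (‖a‖ ^ 2 / N) + (1 / ρ + 1) * (‖b‖ ^ 2 / N) := by
          field_simp
          ring
      _ ≤ ρ * (1 + D) + (1 / ρ + 1) * (‖b‖ ^ 2 / N) := by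
          have := mul_le_mul_of_nonneg_left h4 hρ.le
          linarith
  rw [e]
  calc |(‖a‖ ^ 2 / N - 1) + (‖a + b‖ ^ 2 - ‖a‖ ^ 2) / N|
      ≤ |‖a‖ ^ 2 / N - 1| + |(‖a + b‖ ^ 2 - ‖a‖ ^ 2) / N| := abs_add_le _ _
    _ ≤ (D + τ) + (ρ * (1 + D) + (1 / ρ + 1) * (‖b‖ ^ 2 / N)) := add_le_add h5 h6
    _ = (1 + ρ) * D + (τ + ρ) + (1 / ρ + 1) * (‖b‖ ^ 2 / N) := by ring

private lemma S4_sub {F : ℝ → ℝ} (hF : Continuous F) (hF0 : ∀ x, 0 ≤ F x) {η : ℝ} (hη : 0 ≤ η)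
    (hη1 : η ≤ 1 / 2) : ∫ x in η..(1 - η), F x ≤ ∫ x in (0 : ℝ)..1, F x :=
  intervalIntegral.integral_mono_interval hη (by linarith) (by linarith)
    (Filter.Eventually.of_forall hF0) (hF.intervalIntegrable _ _)

private lemma S4_pos {Q : ℝ → ℝ} (hQc : Continuous Q) (hQ0 : ∀ x, 0 ≤ Q x)
    (hQ1 : ∫ x in (0 : ℝ)..1, Q x = 1) {η : ℝ} (hη : 0 ≤ η) (hη1 : η ≤ 1 / 2)
    {f g : ℝ → ℂ} (hf : Continuous f) (hg : Continuous g) {Λ N τ ρ : ℝ}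
    (hΛ : 0 < Λ) (hN : Λ ≤ N) (hN2 : N ≤ (1 + τ) * Λ) (hτ : 0 ≤ τ) (hρ : 0 < ρ)
    (hρ1 : ρ ≤ 1) (h1 : ∫ x in (0 : ℝ)..1, Q x * |‖f x‖ ^ 2 / Λ - 1| ≤ τ)
    (h2 : ∫ x in η..(1 - η), Q x * ‖g x‖ ^ 2 ≤ ρ ^ 2 * N) :
    ∫ x in η..(1 - η), Q x * |‖f x + g x‖ ^ 2 / N - 1| ≤ 3 * τ + 5 * ρ := by
  have hN0 : 0 < N := lt_of_lt_of_le hΛ hN
  have c1 : Continuous fun x => Q x * |‖f x‖ ^ 2 / Λ - 1| := by fun_prop
  have c2 : Continuous fun x => Q x * ‖g x‖ ^ 2 / N := by fun_prop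
  have c3 : Continuous fun x => Q x * |‖f x + g x‖ ^ 2 / N - 1| := by fun_prop
  have c4 : Continuous fun x => (1 + ρ) * (Q x * |‖f x‖ ^ 2 / Λ - 1|) := continuous_const.mul c1
  have c5 : Continuous fun x => (τ + ρ) * Q x := continuous_const.mul hQc
  have c6 : Continuous fun x => (1 / ρ + 1) * (Q x * ‖g x‖ ^ 2 / N) := continuous_const.mul c2
  have hle : ∫ x in η..(1 - η), Q x * |‖f x + g x‖ ^ 2 / N - 1| ≤
      ∫ x in η..(1 - η), ((1 + ρ) * (Q x * |‖f x‖ ^ 2 / Λ - 1|) + (τ + ρ) * Q x +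
        (1 / ρ + 1) * (Q x * ‖g x‖ ^ 2 / N)) := by
    apply intervalIntegral.integral_mono_on (by linarith)
    · exact c3.intervalIntegrable _ _
    · exact ((c4.add c5).add c6).intervalIntegrable _ _
    · intro x _
      have h := mul_le_mul_of_nonneg_left (S4_ptwise (f x) (g x) hΛ hN hN2 hτ hρ) (hQ0 x)
      refine h.trans (le_of_eq ?_)
      ring
  have hI : ∫ x in η..(1 - η), ((1 + ρ) * (Q x * |‖f x‖ ^ 2 / Λ - 1|) + (τ + ρ) * Q x +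
        (1 / ρ + 1) * (Q x * ‖g x‖ ^ 2 / N)) =
      (1 + ρ) * (∫ x in η..(1 - η), Q x * |‖f x‖ ^ 2 / Λ - 1|) +
        (τ + ρ) * (∫ x in η..(1 - η), Q x) +
        (1 / ρ + 1) * ((∫ x in η..(1 - η), Q x * ‖g x‖ ^ 2) / N) := by
    have e1 := intervalIntegral.integral_add (μ := volume)
      ((c4.add c5).intervalIntegrable η (1 - η)) (c6.intervalIntegrable η (1 - η))
    have e2 := intervalIntegral.integral_add (μ := volume) (c4.intervalIntegrable η (1 - η))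
      (c5.intervalIntegrable η (1 - η))
    have e3 : ∫ x in η..(1 - η), (1 + ρ) * (Q x * |‖f x‖ ^ 2 / Λ - 1|) =
        (1 + ρ) * ∫ x in η..(1 - η), Q x * |‖f x‖ ^ 2 / Λ - 1| :=
      intervalIntegral.integral_const_mul _ _
    have e4 : ∫ x in η..(1 - η), (τ + ρ) * Q x = (τ + ρ) * ∫ x in η..(1 - η), Q x :=
      intervalIntegral.integral_const_mul _ _
    have e5 : ∫ x in η..(1 - η), (1 / ρ + 1) * (Q x * ‖g x‖ ^ 2 / N) =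
        (1 / ρ + 1) * ((∫ x in η..(1 - η), Q x * ‖g x‖ ^ 2) / N) := by
      rw [intervalIntegral.integral_const_mul, intervalIntegral.integral_div]
    rw [← e3, ← e4, ← e5]
    refine e1.trans ?_
    rw [← e2]
    rfl
  rw [hI] at hle
  have i1 : ∫ x in η..(1 - η), Q x * |‖f x‖ ^ 2 / Λ - 1| ≤ τ :=
    (S4_sub c1 (fun x => mul_nonneg (hQ0 x) (abs_nonneg _)) hη hη1).trans h1
  have i2 : ∫ x in η..(1 - η), Q x ≤ 1 := (S4_sub hQc hQ0 hη hη1).trans hQ1.le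
  have hG : (∫ x in η..(1 - η), Q x * ‖g x‖ ^ 2) / N ≤ ρ ^ 2 := by
    rw [div_le_iff₀ hN0]
    exact h2
  have hG2 : (1 / ρ + 1) * ((∫ x in η..(1 - η), Q x * ‖g x‖ ^ 2) / N) ≤ (1 / ρ + 1) * ρ ^ 2 :=
    mul_le_mul_of_nonneg_left hG (by positivity)
  have hG3 : (1 / ρ + 1) * ρ ^ 2 = ρ + ρ ^ 2 := by
    field_simp
  have hF : (1 + ρ) * (∫ x in η..(1 - η), Q x * |‖f x‖ ^ 2 / Λ - 1|) ≤ (1 + ρ) * τ :=
    mul_le_mul_of_nonneg_left i1 (by linarith)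
  have hE : (τ + ρ) * (∫ x in η..(1 - η), Q x) ≤ (τ + ρ) * 1 :=
    mul_le_mul_of_nonneg_left i2 (by linarith)
  nlinarith

theorem perturb_w {Q : ℝ → ℝ} (hQc : Continuous Q) (hQ0 : ∀ x, 0 ≤ Q x)
    (hQ1 : ∫ x in (0 : ℝ)..1, Q x = 1) {η : ℝ} (hη : 0 ≤ η) (hη1 : η ≤ 1 / 2)
    {f g : ℝ → ℂ} (hf : Continuous f) (hg : Continuous g) {Λ N τ ρ : ℝ}
    (hΛ : 0 < Λ) (hN : Λ ≤ N) (hN2 : N ≤ (1 + τ) * Λ) (hτ : 0 ≤ τ) (hτ1 : τ ≤ 1) (hρ : 0 ≤ ρ)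
    (hρ1 : ρ ≤ 1) (h1 : ∫ x in (0 : ℝ)..1, Q x * |‖f x‖ ^ 2 / Λ - 1| ≤ τ)
    (h2 : ∫ x in η..(1 - η), Q x * ‖g x‖ ^ 2 ≤ ρ ^ 2 * N) :
    ∫ x in η..(1 - η), Q x * |‖f x + g x‖ ^ 2 / N - 1| ≤ 3 * τ + 5 * ρ := by
  rcases hρ.lt_or_eq with hpos | hzero
  · exact S4_pos hQc hQ0 hQ1 hη hη1 hf hg hΛ hN hN2 hτ hpos hρ1 h1 h2
  · subst hzero
    have hN0 : 0 < N := lt_of_lt_of_le hΛ hN
    have key : ∀ ε : ℝ, 0 < ε → ε ≤ 1 →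
        ∫ x in η..(1 - η), Q x * |‖f x + g x‖ ^ 2 / N - 1| ≤ 3 * τ + 5 * ε := by
      intro ε hε hε1
      apply S4_pos hQc hQ0 hQ1 hη hη1 hf hg hΛ hN hN2 hτ hε hε1 h1
      refine h2.trans ?_
      have : 0 ≤ ε ^ 2 * N := by positivity
      simpa using this
    apply le_of_forall_pos_le_add
    intro δ hδ
    have h := key (min (δ / 5) 1) (lt_min (by positivity) one_pos) (min_le_right _ _)
    have h' : min (δ / 5) 1 ≤ δ / 5 := min_le_left _ _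
    linarith

end Vale.Agent.P130B
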