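import Mathlib
import Vale.Agent.Lib.P110F.Defs

set_option autoImplicit false

/-!
P130B: a weight of degree less than `h` does not see functions of `h x`.
-/

namespace Vale.Agent.P130B

open MeasureTheory Vale.Agent.P110F
open scoped ComplexConjugate

private theorem scale_periodic {ψ : ℝ → ℂ} (hper : ∀ x, ψ (x + 1) = ψ x) :
    Function.Periodic ψ 1 := hper

private theorem scale_zero {h : ℕ} (hh : 0 < h) {ψ : ℝ → ℂ} (hψ : Continuous ψ)
    (hper : ∀ x, ψ (x + 1) = ψ x) :
    ∫ x in (0 : ℝ)..1, ψ (h * x) = ∫ x in (0 : ℝ)..1, ψ x := by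
  have hh' : (h : ℝ) ≠ 0 := by positivity
  rw [intervalIntegral.integral_comp_mul_left ψ hh']
  have h1 : ∫ x in ((h : ℝ) * 0)..((h : ℝ) * 1), ψ x = h • ∫ x in (0 : ℝ)..1, ψ x := by
    have h2 := (scale_periodic hper).intervalIntegral_add_zsmul_eq (n := (h : ℤ)) 0
      (fun t₁ t₂ => hψ.intervalIntegrable t₁ t₂)
    simp only [zsmul_eq_mul, mul_one, zero_add] at h2
    rw [mul_zero, mul_one]
    simpa using h2
  rw [h1]
  rw [nsmul_eq_mul, Complex.real_smul]
  push_cast
  rw [← mul_assoc, inv_mul_cancel₀ (by exact_mod_cast hh'), one_mul]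

private theorem scale_ne {h : ℕ} (hh : 0 < h) {a : ℤ} (ha0 : a ≠ 0) (ha : |a| < h) {ψ : ℝ → ℂ}
    (hψ : Continuous ψ) (hper : ∀ x, ψ (x + 1) = ψ x) :
    ∫ x in (0 : ℝ)..1, e1 (a * x) * ψ (h * x) = 0 := by
  have hh' : (h : ℝ) ≠ 0 := by positivity
  set g : ℝ → ℂ := fun x => e1 (a * x) * ψ (h * x) with hg
  have hgper : Function.Periodic g 1 := by
    intro x
    simp only [hg]
    have h1 : e1 (a * (x + 1)) = e1 (a * x) := by
      rw [mul_add, mul_one, e1_add, e1_int, mul_one]
    have h2 : ψ (h * (x + 1)) = ψ (h * x) := by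
      rw [mul_add, mul_one]
      have := (scale_periodic hper).nat_mul h
      simpa using this (h * x)
    rw [h1, h2]
  have hgc : Continuous g :=
    (continuous_e1.comp (continuous_const.mul continuous_id)).mul
      (hψ.comp (continuous_const.mul continuous_id))
  have h1 : ∫ x in (0 : ℝ)..1, g (x + 1 / h) = ∫ x in (0 : ℝ)..1, g x := by
    rw [intervalIntegral.integral_comp_add_right]
    have := hgper.intervalIntegral_add_eq (0 + 1 / (h : ℝ)) 0
    rw [show (1 : ℝ) + 1 / h = 0 + 1 / h + 1 by ring]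
    rw [this, zero_add]
  have h2 : ∀ x, g (x + 1 / h) = e1 (a / h) * g x := by
    intro x
    simp only [hg]
    rw [mul_add, e1_add, mul_add, mul_one_div, mul_one_div, div_self hh', hper]
    ring
  have h3 : e1 (a / h) * ∫ x in (0 : ℝ)..1, g x = ∫ x in (0 : ℝ)..1, g x := by
    rw [← intervalIntegral.integral_const_mul, ← h1]
    exact intervalIntegral.integral_congr fun x _ => (h2 x).symm
  have h4 : e1 ((a : ℝ) / h) ≠ 1 := by
    intro h5
    unfold e1 at h5
    rw [Complex.exp_eq_one_iff] at h5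
    obtain ⟨z, hz⟩ := h5
    have h6 : ((a : ℂ) / h) = z := by
      have h7 : (2 * Real.pi * Complex.I : ℂ) ≠ 0 := Complex.two_pi_I_ne_zero
      have h8 : (2 * Real.pi * Complex.I : ℂ) * ((a : ℂ) / h) = (2 * Real.pi * Complex.I) * z := by
        push_cast at hz
        rw [hz]
        ring
      exact mul_left_cancel₀ h7 h8
    have h9 : (a : ℂ) = z * h := by
      rw [← h6, div_mul_cancel₀ _ (by exact_mod_cast hh')]
    have h10 : a = z * h := by exact_mod_cast h9
    have h11 : z ≠ 0 := by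
      rintro rfl
      rw [zero_mul] at h10
      exact ha0 h10
    have h12 : (h : ℤ) ≤ |a| := by
      rw [h10, abs_mul, Nat.abs_cast]
      have : 1 ≤ |z| := Int.one_le_abs h11
      nlinarith [Int.natCast_nonneg h]
    linarith
  have h5 : (e1 ((a : ℝ) / h) - 1) * ∫ x in (0 : ℝ)..1, g x = 0 := by
    rw [sub_mul, one_mul, h3, sub_self]
  exact (mul_eq_zero.1 h5).resolve_left (sub_ne_zero.2 h4)

/-- A trigonometric polynomial of degree less than `h` and a function of `h x` are independent. -/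
theorem int_scale {d h : ℕ} (hd : d < h) {Q : ℝ → ℝ}
    (hQ : ∃ q : ℤ → ℂ, ∀ x, (Q x : ℂ) = ∑ a ∈ Finset.Icc (-(d : ℤ)) d, q a * e1 (a * x))
    {Φ : ℝ → ℝ} (hΦ : Continuous Φ) (hper : ∀ x, Φ (x + 1) = Φ x) :
    ∫ x in (0 : ℝ)..1, Q x * Φ (h * x) = (∫ x in (0 : ℝ)..1, Q x) * ∫ x in (0 : ℝ)..1, Φ x := by
  obtain ⟨q, hq⟩ := hQ
  have hh : 0 < h := by omega
  set ψ : ℝ → ℂ := fun x => (Φ x : ℂ) with hψ
  have hψc : Continuous ψ := Complex.continuous_ofReal.comp hΦ
  have hψp : ∀ x, ψ (x + 1) = ψ x := fun x => by simp only [hψ, hper]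
  have key : ∀ (χ : ℝ → ℂ) (m : ℕ), d < m → Continuous χ → (∀ x, χ (x + 1) = χ x) →
      ∫ x in (0 : ℝ)..1, (Q x : ℂ) * χ (m * x) = q 0 * ∫ x in (0 : ℝ)..1, χ x := by
    intro χ m hm hχ hχp
    have h1 : ∀ x, (Q x : ℂ) * χ (m * x) =
        ∑ a ∈ Finset.Icc (-(d : ℤ)) d, q a * (e1 (a * x) * χ (m * x)) := by
      intro x
      rw [hq, Finset.sum_mul]
      exact Finset.sum_congr rfl fun a _ => by ring
    rw [intervalIntegral.integral_congr fun x _ => h1 x,
      intervalIntegral.integral_finsetSum]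
    · rw [Finset.sum_eq_single (0 : ℤ)]
      · rw [intervalIntegral.integral_const_mul]
        congr 1
        rw [← scale_zero (by omega : 0 < m) hχ hχp]
        refine intervalIntegral.integral_congr fun x _ => ?_
        simp [e1_zero]
      · intro a ha ha0
        rw [intervalIntegral.integral_const_mul, scale_ne (by omega : 0 < m) ha0 ?_ hχ hχp,
          mul_zero]
        rw [Finset.mem_Icc] at ha
        rw [abs_lt]
        omega
      · intro h0
        exact absurd (Finset.mem_Icc.2 ⟨by omega, by omega⟩) h0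
    · intro a _
      exact (continuous_const.mul ((continuous_e1.comp (continuous_const.mul continuous_id)).mul
        (hχ.comp (continuous_const.mul continuous_id)))).intervalIntegrable _ _
  have h1 := key ψ h hd hψc hψp
  have h2 := key (fun _ => 1) h hd continuous_const fun _ => rfl
  have h3 : ((∫ x in (0 : ℝ)..1, Q x * Φ (h * x) : ℝ) : ℂ) =
      (((∫ x in (0 : ℝ)..1, Q x) * ∫ x in (0 : ℝ)..1, Φ x : ℝ) : ℂ) := by
    have h4 : ((∫ x in (0 : ℝ)..1, Q x * Φ (h * x) : ℝ) : ℂ) =
        ∫ x in (0 : ℝ)..1, (Q x : ℂ) * ψ (h * x) := by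
      rw [← intervalIntegral.integral_ofReal]
      exact intervalIntegral.integral_congr fun x _ => by simp only [hψ]; push_cast; rfl
    have h5 : ((∫ x in (0 : ℝ)..1, Φ x : ℝ) : ℂ) = ∫ x in (0 : ℝ)..1, ψ x := by
      rw [← intervalIntegral.integral_ofReal]
    have h6 : ((∫ x in (0 : ℝ)..1, Q x : ℝ) : ℂ) = q 0 := by
      rw [← intervalIntegral.integral_ofReal]
      simpa using h2
    rw [h4, h1, Complex.ofReal_mul, h5, h6]
  exact_mod_cast h3

end Vale.Agent.P130B
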