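import Vale.Agent.Lib.P130B.F.Defs

/-!
# P130B part I, module T1

elementary.
-/

namespace Vale.Agent.P130B

open MeasureTheory Filter Topology Vale.Agent.P110F
open scoped ComplexConjugate

private theorem T1_win {R N : ℕ} {σ σ' : ℕ → Bool} (h : ∀ i < N, σ i = σ' i) {a : ℕ}
    (ha : a * R + R ≤ N) : Win R σ a ↔ Win R σ' a := by
  constructor
  · intro hw r hr
    rw [← h (a * R + r) (by omega)]
    exact hw r hr
  · intro hw r hr
    rw [h (a * R + r) (by omega)]
    exact hw r hr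

private theorem T1_idx {R q b : ℕ} (hb : b < q / R) : b * R + R ≤ q := by
  have h1 : (b + 1) * R ≤ q / R * R := Nat.mul_le_mul_right R hb
  have h2 : q / R * R ≤ q := Nat.div_mul_le_self q R
  have h3 : (b + 1) * R = b * R + R := by ring
  omega

theorem CC_congr {R q : ℕ} (hR : 0 < R) {σ σ' : ℕ → Bool} (h : ∀ i < q, σ i = σ' i) :
    CC R q σ = CC R q σ' := by
  classical
  have h1 : ((∀ b < q / R, ¬ Win R σ b) ∧ ∀ i < q % R, σ (q / R * R + i) = true) ↔
      ((∀ b < q / R, ¬ Win R σ' b) ∧ ∀ i < q % R, σ' (q / R * R + i) = true) := by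
    have h4 : q / R * R + q % R = q := by
      rw [mul_comm]
      exact Nat.div_add_mod q R
    refine and_congr ?_ ?_
    · refine forall_congr' fun b => forall_congr' fun hb => not_congr ?_
      exact T1_win h (T1_idx hb)
    · refine forall_congr' fun i => forall_congr' fun hi => ?_
      rw [h (q / R * R + i) (by omega)]
  unfold CC
  exact if_congr h1 rfl rfl

theorem CC_nonneg (R q : ℕ) (σ : ℕ → Bool) : 0 ≤ CC R q σ ∧ CC R q σ ≤ 1 := by
  unfold CC
  split_ifs
  · exact ⟨by positivity, pow_le_one₀ (by norm_num) (by norm_num)⟩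
  · exact ⟨le_refl _, zero_le_one⟩

theorem AA_le (K R : ℕ) (σ : ℕ → Bool) : AA K R σ ≤ K := by
  classical
  unfold AA
  split_ifs with h
  · exact (Nat.find_spec h).1
  · exact Nat.zero_le _

theorem AA_congr {K R : ℕ} (hR : 0 < R) {σ σ' : ℕ → Bool} (h : ∀ i < (K + 1) * R, σ i = σ' i) :
    AA K R σ = AA K R σ' := by
  classical
  have hw : ∀ a, a ≤ K → (Win R σ a ↔ Win R σ' a) := by
    intro a ha
    refine T1_win h ?_
    have h1 : (a + 1) * R ≤ (K + 1) * R := Nat.mul_le_mul_right R (by omega)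
    have h3 : (a + 1) * R = a * R + R := by ring
    omega
  unfold AA
  by_cases h1 : ∃ a, a ≤ K ∧ Win R σ a
  · have h2 : ∃ a, a ≤ K ∧ Win R σ' a := by
      obtain ⟨a, ha, hwa⟩ := h1
      exact ⟨a, ha, (hw a ha).1 hwa⟩
    rw [dif_pos h1, dif_pos h2]
    apply le_antisymm
    · have h3 := Nat.find_spec h2
      exact Nat.find_min' h1 ⟨h3.1, (hw _ h3.1).2 h3.2⟩
    · have h3 := Nat.find_spec h1
      exact Nat.find_min' h2 ⟨h3.1, (hw _ h3.1).1 h3.2⟩
  · have h2 : ¬ ∃ a, a ≤ K ∧ Win R σ' a := by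
      rintro ⟨a, ha, hwa⟩
      exact h1 ⟨a, ha, (hw a ha).2 hwa⟩
    rw [dif_neg h1, dif_neg h2]

end Vale.Agent.P130B
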