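import Vale.Agent.Lib.P130B.F.T1

/-!
# P130B part I, module T1b

with N_a = [no win before a], W_a = [win at a]: sum_(r<R) of block a equals N_a (W_a - 2^-R) (product (1+s)/2 telescopes), so the difference is 2^-R sum_(a<=K) e1(a t) N_a + [NoWin] e1(0); N_a is an initial segment, geometric sum: |sin(pi t)| |sum_(a<n) e1(a t)| <= 1.
-/

namespace Vale.Agent.P130B

open MeasureTheory Filter Topology Vale.Agent.P110F
open scoped ComplexConjugate

private theorem T1b_geom (θ : ℝ) (n : ℕ) :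
    |Real.sin (Real.pi * θ)| * ‖∑ a ∈ Finset.range n, e1 ((a : ℝ) * θ)‖ ≤ 1 := by
  have h1 : (e1 θ - 1) * ∑ a ∈ Finset.range n, e1 ((a : ℝ) * θ) = e1 ((n : ℝ) * θ) - 1 := by
    induction n with
    | zero =>
      rw [Finset.sum_range_zero, mul_zero, Nat.cast_zero, zero_mul, e1_zero, sub_self]
    | succ n ih =>
      rw [Finset.sum_range_succ, mul_add, ih]
      have h2 : e1 (((n + 1 : ℕ) : ℝ) * θ) = e1 θ * e1 ((n : ℝ) * θ) := by
        rw [← e1_add]
        congr 1
        push_cast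
        ring
      rw [h2]
      ring
  have h3 : ‖e1 θ - 1‖ = 2 * |Real.sin (Real.pi * θ)| := by
    have h4 : e1 θ = Complex.exp (Complex.I * ((2 * Real.pi * θ : ℝ) : ℂ)) := by
      unfold e1
      congr 1
      push_cast
      ring
    rw [h4, Complex.norm_exp_I_mul_ofReal_sub_one]
    rw [norm_mul, Real.norm_eq_abs, Real.norm_eq_abs, abs_two]
    congr 3
    ring
  have h5 : ‖e1 ((n : ℝ) * θ) - 1‖ ≤ 2 := by
    refine (norm_sub_le _ _).trans ?_
    rw [norm_e1, norm_one]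
    norm_num
  have h6 : 2 * (|Real.sin (Real.pi * θ)| * ‖∑ a ∈ Finset.range n, e1 ((a : ℝ) * θ)‖) ≤ 2 := by
    calc 2 * (|Real.sin (Real.pi * θ)| * ‖∑ a ∈ Finset.range n, e1 ((a : ℝ) * θ)‖)
        = ‖(e1 θ - 1) * ∑ a ∈ Finset.range n, e1 ((a : ℝ) * θ)‖ := by
          rw [norm_mul, h3]; ring
      _ ≤ 2 := by rw [h1]; exact h5
  linarith

open Classical in
private theorem T1b_block {R : ℕ} (hR : 0 < R) (σ : ℕ → Bool) (a : ℕ) :
    ∑ r ∈ Finset.range R, CC R (a * R + r) σ * sgn (σ (a * R + r)) =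
      if (∀ b < a, ¬ Win R σ b) then ((if Win R σ a then 1 else 0) - (1 / 2 : ℝ) ^ R) else 0 := by
  have hdiv : ∀ r < R, (a * R + r) / R = a := fun r hr => by
    rw [mul_comm a R, Nat.mul_add_div hR, Nat.div_eq_of_lt hr, add_zero]
  have hmod : ∀ r < R, (a * R + r) % R = r := fun r hr => by
    rw [mul_comm a R, Nat.mul_add_mod, Nat.mod_eq_of_lt hr]
  by_cases hN : ∀ b < a, ¬ Win R σ b
  · rw [if_pos hN]
    have hCC : ∀ r < R, CC R (a * R + r) σ =
        if (∀ i < r, σ (a * R + i) = true) then (1 / 2 : ℝ) ^ (R - r) else 0 := fun r hr => by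
      unfold CC
      rw [hdiv r hr, hmod r hr]
      by_cases h : ∀ i < r, σ (a * R + i) = true
      · rw [if_pos h, if_pos ⟨hN, h⟩]
      · rw [if_neg h, if_neg (fun h' => h h'.2)]
    have key : ∀ m ≤ R, ∑ r ∈ Finset.range m, CC R (a * R + r) σ * sgn (σ (a * R + r)) =
        (if (∀ i < m, σ (a * R + i) = true) then (1 / 2 : ℝ) ^ (R - m) else 0) -
          (1 / 2 : ℝ) ^ R := by
      intro m
      induction m with
      | zero =>
        intro _
        rw [Finset.sum_range_zero, if_pos (fun i hi => absurd hi (Nat.not_lt_zero i)), Nat.sub_zero,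
          sub_self]
      | succ m ih =>
        intro hm
        rw [Finset.sum_range_succ, ih (by omega), hCC m (by omega)]
        have hp : (1 / 2 : ℝ) ^ (R - m) = (1 / 2) * (1 / 2 : ℝ) ^ (R - (m + 1)) := by
          rw [← pow_succ']
          congr 1
          omega
        by_cases h : ∀ i < m, σ (a * R + i) = true
        · rw [if_pos h]
          by_cases h2 : σ (a * R + m) = true
          · have h3 : ∀ i < m + 1, σ (a * R + i) = true := fun i hi => by
              rcases Nat.lt_succ_iff_lt_or_eq.1 hi with h4 | h4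
              · exact h i h4
              · rw [h4]; exact h2
            rw [if_pos h3]
            unfold sgn
            rw [if_pos h2, hp]
            ring
          · have h3 : ¬ ∀ i < m + 1, σ (a * R + i) = true := fun h3 => h2 (h3 m (Nat.lt_succ_self m))
            rw [if_neg h3]
            unfold sgn
            rw [if_neg h2]
            ring
        · have h3 : ¬ ∀ i < m + 1, σ (a * R + i) = true := fun h3 =>
            h fun i hi => h3 i (Nat.lt_succ_of_lt hi)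
          rw [if_neg h, if_neg h3]
          ring
    rw [key R le_rfl, Nat.sub_self, pow_zero]
    exact congrArg (· - (1 / 2 : ℝ) ^ R) (if_congr Iff.rfl rfl rfl)
  · rw [if_neg hN]
    refine Finset.sum_eq_zero fun r hr => ?_
    rw [Finset.mem_range] at hr
    unfold CC
    rw [hdiv r hr, if_neg (fun h' => hN h'.1), zero_mul]

private theorem T1b_split {M : Type*} [AddCommMonoid M] (f : ℕ → M) (R n : ℕ) :
    ∑ q ∈ Finset.range (n * R), f q =
      ∑ a ∈ Finset.range n, ∑ r ∈ Finset.range R, f (a * R + r) := by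
  induction n with
  | zero => rw [Nat.zero_mul, Finset.sum_range_zero, Finset.sum_range_zero]
  | succ n ih =>
    rw [Nat.succ_mul, Finset.sum_range_add, ih, Finset.sum_range_succ]

theorem sign_bound (K : ℕ) {R : ℕ} (hR : 0 < R) (σ : ℕ → Bool) (θ : ℝ) :
    |Real.sin (Real.pi * θ)| * ‖e1 ((AA K R σ : ℝ) * θ) - ∑ q ∈ Finset.range ((K + 1) * R),
      ((CC R q σ * sgn (σ q) : ℝ) : ℂ) * e1 (((q / R : ℕ) : ℝ) * θ)‖ ≤
      (1 / 2 : ℝ) ^ R + (open Classical in if NoWin K R σ then 1 else 0) := by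
  classical
  have hdiv : ∀ a r, r < R → (a * R + r) / R = a := fun a r hr => by
    rw [mul_comm a R, Nat.mul_add_div hR, Nat.div_eq_of_lt hr, add_zero]
  have h1 : ∑ q ∈ Finset.range ((K + 1) * R),
      ((CC R q σ * sgn (σ q) : ℝ) : ℂ) * e1 (((q / R : ℕ) : ℝ) * θ) =
      ∑ a ∈ Finset.range (K + 1), (((if (∀ b < a, ¬ Win R σ b) then
        ((if Win R σ a then 1 else 0) - (1 / 2 : ℝ) ^ R) else 0 : ℝ)) : ℂ) *
          e1 ((a : ℝ) * θ) := by
    rw [T1b_split]
    refine Finset.sum_congr rfl fun a _ => ?_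
    rw [← T1b_block hR σ a, Complex.ofReal_sum, Finset.sum_mul]
    refine Finset.sum_congr rfl fun r hr => ?_
    rw [hdiv a r (Finset.mem_range.1 hr)]
  rw [h1]
  have hs : |Real.sin (Real.pi * θ)| ≤ 1 := Real.abs_sin_le_one _
  have hp : (0 : ℝ) ≤ (1 / 2 : ℝ) ^ R := by positivity
  by_cases hw : ∃ a, a ≤ K ∧ Win R σ a
  · have hAA : AA K R σ = Nat.find hw := by
      unfold AA
      rw [dif_pos hw]
    obtain ⟨hA1, hA2⟩ := Nat.find_spec hw
    have hA3 : ∀ b < Nat.find hw, ¬ Win R σ b := fun b hb hwin =>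
      Nat.find_min hw hb ⟨(hb.le.trans hA1), hwin⟩
    set A := Nat.find hw with hA
    rw [hAA]
    have hno : ¬ NoWin K R σ := fun h => h A hA1 hA2
    rw [if_neg hno, add_zero]
    have h2 : ∑ a ∈ Finset.range (K + 1), (((if (∀ b < a, ¬ Win R σ b) then
        ((if Win R σ a then 1 else 0) - (1 / 2 : ℝ) ^ R) else 0 : ℝ)) : ℂ) *
          e1 ((a : ℝ) * θ) = e1 ((A : ℝ) * θ) -
        (((1 / 2 : ℝ) ^ R : ℝ) : ℂ) * ∑ a ∈ Finset.range (A + 1), e1 ((a : ℝ) * θ) := by
      have h3 : ∑ a ∈ Finset.range (K + 1), (((if (∀ b < a, ¬ Win R σ b) then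
        ((if Win R σ a then 1 else 0) - (1 / 2 : ℝ) ^ R) else 0 : ℝ)) : ℂ) *
          e1 ((a : ℝ) * θ) = ∑ a ∈ Finset.range (A + 1), (((if (∀ b < a, ¬ Win R σ b) then
        ((if Win R σ a then 1 else 0) - (1 / 2 : ℝ) ^ R) else 0 : ℝ)) : ℂ) *
          e1 ((a : ℝ) * θ) := by
        refine (Finset.sum_subset (Finset.range_mono (by omega)) fun a _ ha => ?_).symm
        rw [Finset.mem_range] at ha
        rw [if_neg (fun h => h A (by omega) hA2), Complex.ofReal_zero, zero_mul]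
      rw [h3, Finset.sum_range_succ, Finset.sum_range_succ, if_pos hA3, if_pos hA2]
      have h4 : ∑ a ∈ Finset.range A, (((if (∀ b < a, ¬ Win R σ b) then
        ((if Win R σ a then 1 else 0) - (1 / 2 : ℝ) ^ R) else 0 : ℝ)) : ℂ) *
          e1 ((a : ℝ) * θ) = ∑ a ∈ Finset.range A, -((((1 / 2 : ℝ) ^ R : ℝ) : ℂ) *
            e1 ((a : ℝ) * θ)) := by
        refine Finset.sum_congr rfl fun a ha => ?_
        rw [Finset.mem_range] at ha
        rw [if_pos (fun b hb => hA3 b (hb.trans ha)), if_neg (hA3 a ha), zero_sub,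
          Complex.ofReal_neg, neg_mul]
      rw [h4, Finset.sum_neg_distrib, ← Finset.mul_sum, Complex.ofReal_sub, Complex.ofReal_one]
      ring
    rw [h2, sub_sub_cancel, norm_mul, Complex.norm_real, Real.norm_eq_abs, abs_of_nonneg hp]
    calc |Real.sin (Real.pi * θ)| * ((1 / 2 : ℝ) ^ R *
          ‖∑ a ∈ Finset.range (A + 1), e1 ((a : ℝ) * θ)‖)
        = (1 / 2 : ℝ) ^ R * (|Real.sin (Real.pi * θ)| *
          ‖∑ a ∈ Finset.range (A + 1), e1 ((a : ℝ) * θ)‖) := by ring
      _ ≤ (1 / 2 : ℝ) ^ R * 1 := mul_le_mul_of_nonneg_left (T1b_geom θ _) hp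
      _ = (1 / 2 : ℝ) ^ R := mul_one _
  · have hAA : AA K R σ = 0 := by
      unfold AA
      rw [dif_neg hw]
    have hno' : ∀ a ≤ K, ¬ Win R σ a := fun a ha h => hw ⟨a, ha, h⟩
    have hno : NoWin K R σ := hno'
    rw [hAA, if_pos hno]
    have h4 : ∑ a ∈ Finset.range (K + 1), (((if (∀ b < a, ¬ Win R σ b) then
        ((if Win R σ a then 1 else 0) - (1 / 2 : ℝ) ^ R) else 0 : ℝ)) : ℂ) *
          e1 ((a : ℝ) * θ) = ∑ a ∈ Finset.range (K + 1), -((((1 / 2 : ℝ) ^ R : ℝ) : ℂ) *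
            e1 ((a : ℝ) * θ)) := by
      refine Finset.sum_congr rfl fun a ha => ?_
      rw [Finset.mem_range] at ha
      rw [if_pos (fun b hb => hno' b (by omega)), if_neg (hno' a (by omega)), zero_sub,
        Complex.ofReal_neg, neg_mul]
    rw [h4, Finset.sum_neg_distrib, ← Finset.mul_sum, sub_neg_eq_add, Nat.cast_zero, zero_mul,
      e1_zero]
    calc |Real.sin (Real.pi * θ)| * ‖1 + (((1 / 2 : ℝ) ^ R : ℝ) : ℂ) *
          ∑ a ∈ Finset.range (K + 1), e1 ((a : ℝ) * θ)‖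
        ≤ |Real.sin (Real.pi * θ)| * (1 + (1 / 2 : ℝ) ^ R *
          ‖∑ a ∈ Finset.range (K + 1), e1 ((a : ℝ) * θ)‖) := by
          refine mul_le_mul_of_nonneg_left ?_ (abs_nonneg _)
          refine (norm_add_le _ _).trans ?_
          rw [norm_one, norm_mul, Complex.norm_real, Real.norm_eq_abs, abs_of_nonneg hp]
      _ = |Real.sin (Real.pi * θ)| + (1 / 2 : ℝ) ^ R * (|Real.sin (Real.pi * θ)| *
          ‖∑ a ∈ Finset.range (K + 1), e1 ((a : ℝ) * θ)‖) := by ring
      _ ≤ 1 + (1 / 2 : ℝ) ^ R * 1 :=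
          add_le_add hs (mul_le_mul_of_nonneg_left (T1b_geom θ _) hp)
      _ = (1 / 2 : ℝ) ^ R + 1 := by ring

end Vale.Agent.P130B
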