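import Vale.Agent.Lib.P130B.F.Defs

/-!
# P130B part I, module T2

the count is (2^R-1)^(K+1) (bijection of Fin((K+1)R) -> Bool with (Fin (K+1) -> (Fin R -> Bool))), or by induction on K; (1-2^-R)^(K+1) -> 0.
-/

namespace Vale.Agent.P130B

open MeasureTheory Filter Topology Vale.Agent.P110F
open scoped ComplexConjugate

/-- the blocks of a finite sequence of signs -/
private def T2_blk (K R : ℕ) (τ : Fin ((K + 1) * R) → Bool) (a : Fin (K + 1)) (r : Fin R) : Bool :=
  τ (finProdFinEquiv (a, r))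

private theorem T2_blk_injective (K R : ℕ) : Function.Injective (T2_blk K R) := by
  intro τ τ' h
  funext i
  obtain ⟨⟨a, r⟩, rfl⟩ := finProdFinEquiv.surjective i
  exact congrFun (congrFun h a) r

private theorem T2_blk_ne {K R : ℕ} {τ : Fin ((K + 1) * R) → Bool} (h : NoWin K R (ext τ))
    (a : Fin (K + 1)) : T2_blk K R τ a ≠ fun _ => true := by
  intro h1
  refine h a (Nat.lt_succ_iff.1 a.2) fun r hr => ?_
  have h2 : T2_blk K R τ a ⟨r, hr⟩ = true := congrFun h1 ⟨r, hr⟩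
  have h3 : (a : ℕ) * R + r < (K + 1) * R := by
    have := (finProdFinEquiv (a, (⟨r, hr⟩ : Fin R))).2
    rw [finProdFinEquiv_apply_val] at this
    simp only at this
    linarith [mul_comm R (a : ℕ)]
  unfold ext
  rw [dif_pos h3, ← h2]
  unfold T2_blk
  congr 1
  apply Fin.ext
  rw [finProdFinEquiv_apply_val]
  simp only
  ring

open Classical in
private theorem T2_card (K R : ℕ) :
    (Finset.univ.filter fun τ : Fin ((K + 1) * R) → Bool => NoWin K R (ext τ)).card ≤
      (2 ^ R - 1) ^ (K + 1) := by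
  have h1 : (Fintype.piFinset fun _ : Fin (K + 1) =>
      (Finset.univ.erase (fun _ => true) : Finset (Fin R → Bool))).card = (2 ^ R - 1) ^ (K + 1) := by
    rw [Fintype.card_piFinset, Finset.prod_const, Finset.card_erase_of_mem (Finset.mem_univ _),
      Finset.card_univ, Finset.card_univ, Fintype.card_fun, Fintype.card_bool, Fintype.card_fin,
      Fintype.card_fin]
  rw [← h1]
  refine Finset.card_le_card_of_injOn (T2_blk K R) ?_ (T2_blk_injective K R).injOn
  intro τ hτ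
  have h2 : NoWin K R (ext τ) := by simpa using hτ
  rw [Finset.mem_coe, Fintype.mem_piFinset]
  intro a
  exact Finset.mem_erase.2 ⟨T2_blk_ne h2 a, Finset.mem_univ _⟩

open Classical in
theorem none_rare {R : ℕ} (hR : 0 < R) {ε : ℝ} (hε : 0 < ε) :
    ∃ K : ℕ, ((Finset.univ.filter fun τ : Fin ((K + 1) * R) → Bool =>
      NoWin K R (ext τ)).card : ℝ) ≤ ε * 2 ^ ((K + 1) * R) := by
  have hp : (1 : ℝ) ≤ 2 ^ R := one_le_pow₀ (by norm_num)
  have hq0 : (0 : ℝ) ≤ (2 ^ R - 1) / 2 ^ R := div_nonneg (by linarith) (by positivity)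
  have hq1 : ((2 : ℝ) ^ R - 1) / 2 ^ R < 1 := by
    rw [div_lt_one (by positivity)]
    linarith
  obtain ⟨K, hK⟩ := exists_pow_lt_of_lt_one hε hq1
  refine ⟨K, ?_⟩
  have h1 : ((Finset.univ.filter fun τ : Fin ((K + 1) * R) → Bool =>
      NoWin K R (ext τ)).card : ℝ) ≤ ((2 : ℝ) ^ R - 1) ^ (K + 1) := by
    have h2 := T2_card K R
    have h3 : (((2 ^ R - 1) ^ (K + 1) : ℕ) : ℝ) = ((2 : ℝ) ^ R - 1) ^ (K + 1) := by
      rw [Nat.cast_pow, Nat.cast_sub Nat.one_le_two_pow]
      push_cast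
      ring
    rw [← h3]
    exact_mod_cast h2
  have h4 : (((2 : ℝ) ^ R - 1) / 2 ^ R) ^ (K + 1) ≤ ε := by
    refine le_trans ?_ hK.le
    exact pow_le_pow_of_le_one hq0 hq1.le (Nat.le_succ K)
  rw [div_pow, div_le_iff₀ (by positivity)] at h4
  have h5 : ((2 : ℝ) ^ R) ^ (K + 1) = 2 ^ ((K + 1) * R) := by
    rw [← pow_mul, mul_comm R (K + 1)]
  rw [h5] at h4
  exact h1.trans h4

end Vale.Agent.P130B
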