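import Vale.Agent.Lib.P130B.F.Defs
import Vale.Agent.Lib.P110F.C4
import Vale.Agent.Lib.P110F.C5

/-!
# P130B part I, module T3a

from P110F exists_F (C5/C6) and integral_sub_partial: F x = 1 or -1; c = mFourierCoeff; int F = int (F - S) because S has no zero mode, Cauchy-Schwarz.
-/

namespace Vale.Agent.P130B

open MeasureTheory Filter Topology Vale.Agent.P110F
open scoped ComplexConjugate

private noncomputable abbrev T3amu (k : ℕ) : Measure (UnitAddTorus (Fin k)) :=
  Measure.pi fun _ => (AddCircle.haarAddCircle : Measure UnitAddCircle)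

private lemma T3a_vol (k : ℕ) : (volume : Measure (UnitAddTorus (Fin k))) = T3amu k := by
  have h : (volume : Measure UnitAddCircle) = AddCircle.haarAddCircle := by
    rw [AddCircle.volume_eq_smul_haarAddCircle, ENNReal.ofReal_one, one_smul]
  rw [volume_pi, h]

private lemma T3a_int_fourier (n : ℤ) :
    ∫ x : UnitAddCircle, fourier n x ∂AddCircle.haarAddCircle = if n = 0 then 1 else 0 := by
  have h := congrFun (fourierCoeff_fourier (T := 1) n) 0
  unfold fourierCoeff at h
  simp only [neg_zero, fourier_zero, one_smul] at h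
  rw [h]
  by_cases hn : n = 0
  · subst hn
    simp
  · rw [if_neg hn, Pi.single_eq_of_ne (Ne.symm hn)]

private lemma T3a_int_zero (k : ℕ) (m : Fin k → ℤ) (i : Fin k) (hi : m i ≠ 0) :
    ∫ x, UnitAddTorus.mFourier m x ∂(T3amu k) = 0 := by
  have h1 : ∀ x : UnitAddTorus (Fin k), UnitAddTorus.mFourier m x =
        ∏ i, fourier (m i) (x i) := by
    intro x
    unfold UnitAddTorus.mFourier
    simp only [ContinuousMap.coe_mk]
  simp_rw [h1]
  have h2 := integral_fintype_prod_eq_prod (𝕜 := ℂ)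
    (μ := fun _ : Fin k => (AddCircle.haarAddCircle : Measure UnitAddCircle))
    (fun i (y : UnitAddCircle) => fourier (m i) y)
  rw [h2]
  simp_rw [T3a_int_fourier]
  exact Finset.prod_eq_zero (Finset.mem_univ i) (if_neg hi)

private lemma T3a_norm_mF (k : ℕ) (m : Fin k → ℤ) (x : UnitAddTorus (Fin k)) :
    ‖UnitAddTorus.mFourier m x‖ = 1 := by
  unfold UnitAddTorus.mFourier
  simp only [ContinuousMap.coe_mk, norm_prod]
  refine Finset.prod_eq_one fun i _ => ?_
  rw [fourier_apply]
  exact Circle.norm_coe _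

private lemma T3a_cs {α : Type*} [MeasurableSpace α] (μ : Measure α) [IsProbabilityMeasure μ]
    (g : α → ℝ) (hg : Measurable g) (C : ℝ) (hC : ∀ x, |g x| ≤ C) :
    (∫ x, g x ∂μ) ^ 2 ≤ ∫ x, g x ^ 2 ∂μ := by
  have i1 : Integrable g μ := Integrable.of_bound hg.aestronglyMeasurable C
    (Eventually.of_forall hC)
  have i2 : Integrable (fun x => g x ^ 2) μ := by
    refine Integrable.of_bound (hg.pow_const 2).aestronglyMeasurable (C ^ 2)
      (Eventually.of_forall fun x => ?_)
    rw [Real.norm_eq_abs, abs_of_nonneg (by positivity), ← sq_abs]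
    exact pow_le_pow_left₀ (abs_nonneg _) (hC x) 2
  set a := ∫ x, g x ∂μ with ha
  have h0 : 0 ≤ ∫ x, (g x - a) ^ 2 ∂μ := integral_nonneg fun x => sq_nonneg _
  have h1 : ∫ x, (g x - a) ^ 2 ∂μ = ∫ x, g x ^ 2 ∂μ - a ^ 2 := by
    have h2 : ∀ x, (g x - a) ^ 2 = g x ^ 2 - 2 * a * g x + a ^ 2 := fun x => by ring
    have i3 : Integrable (fun x => 2 * a * g x) μ := i1.const_mul _
    have i4 : Integrable (fun x => g x ^ 2 - 2 * a * g x) μ := i2.sub i3
    simp_rw [h2]
    rw [integral_add i4 (integrable_const _),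
      integral_sub i2 i3, integral_const_mul, integral_const, ← ha]
    simp only [probReal_univ, one_smul]
    ring
  linarith

theorem exists_sign {ε : ℝ} (hε : 0 < ε) :
    ∃ (k : ℕ) (F : UnitAddTorus (Fin k) → Bool) (Sp : Finset (Fin k → ℤ)) (c : (Fin k → ℤ) → ℂ),
      Measurable F ∧ (∀ m ∈ Sp, LNO m) ∧ |∫ x, sgn (F x)| ≤ ε ∧
      ∫ x, ‖(sgn (F x) : ℂ) - PolS Sp c (fun _ => 0) 0 x‖ ^ 2 ≤ ε := by
  classical
  obtain ⟨k, F, hFm, hF1, Sp, hS, h⟩ := exists_F (lt_min hε (pow_pos hε 2))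
  set c : (Fin k → ℤ) → ℂ := fun m => UnitAddTorus.mFourierCoeff (fun x => (F x : ℂ)) m with hc
  set S : UnitAddTorus (Fin k) → ℂ := fun x => ∑ m ∈ Sp,
    (c m * UnitAddTorus.mFourier m x + conj (c m) * UnitAddTorus.mFourier (-m) x) with hSdef
  have hI : ∫ x, ‖(F x : ℂ) - S x‖ ^ 2 ≤ min ε (ε ^ 2) := by
    have h1 := integral_sub_partial k F hFm hF1 Sp hS
    have h2 : ∫ x, ‖(F x : ℂ) - S x‖ ^ 2 =
        1 - 2 * ∑ m ∈ Sp, ‖UnitAddTorus.mFourierCoeff (fun x => (F x : ℂ)) m‖ ^ 2 := h1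
    rw [h2]
    linarith
  have hsg : ∀ x, sgn (decide (F x = 1)) = F x := by
    intro x
    unfold sgn
    rcases hF1 x with hx | hx
    · simp [hx]
    · rw [hx]
      norm_num
  have hP : ∀ x, PolS Sp c (fun _ => 0) 0 x = S x := by
    intro x
    unfold PolS
    simp [hSdef, e1_zero]
  refine ⟨k, fun x => decide (F x = 1), Sp, c, ?_, hS, ?_, ?_⟩
  · refine measurable_to_bool ?_
    have h7 : (fun x => decide (F x = 1)) ⁻¹' {true} = {x | F x = 1} := by
      ext x
      simp
    rw [h7]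
    exact measurableSet_eq_fun hFm measurable_const
  · simp_rw [hsg]
    have hmm : ∀ n : Fin k → ℤ, Measurable fun x => UnitAddTorus.mFourier n x :=
      fun n => (ContinuousMap.continuous _).measurable
    have hSm : Measurable S := by
      refine Finset.measurable_sum _ fun n _ => ?_
      exact (measurable_const.mul (hmm n)).add (measurable_const.mul (hmm (-n)))
    have hFc : Measurable fun x => (F x : ℂ) := Complex.measurable_ofReal.comp hFm
    have hmi : ∀ (n : Fin k → ℤ) (b : ℂ),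
        Integrable (fun x => b * UnitAddTorus.mFourier n x) (T3amu k) := by
      intro n b
      refine Integrable.of_bound (measurable_const.mul (hmm n)).aestronglyMeasurable ‖b‖
        (Eventually.of_forall fun x => ?_)
      rw [norm_mul, T3a_norm_mF, mul_one]
    have hFi : Integrable (fun x => (F x : ℂ)) (T3amu k) := by
      refine Integrable.of_bound hFc.aestronglyMeasurable 1 (Eventually.of_forall fun x => ?_)
      rcases hF1 x with hx | hx <;> simp [hx]
    have hpi : ∀ m : Fin k → ℤ, Integrable (fun x => c m * UnitAddTorus.mFourier m x +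
        conj (c m) * UnitAddTorus.mFourier (-m) x) (T3amu k) :=
      fun n => (hmi n _).add (hmi (-n) _)
    have hSi : Integrable S (T3amu k) :=
      integrable_finsetSum _ fun n _ => hpi n
    have hS0 : ∫ x, S x ∂(T3amu k) = 0 := by
      have h8 : ∫ x, S x ∂(T3amu k) = ∑ m ∈ Sp, ∫ x, (c m * UnitAddTorus.mFourier m x +
          conj (c m) * UnitAddTorus.mFourier (-m) x) ∂(T3amu k) :=
        integral_finsetSum _ fun n _ => hpi n
      rw [h8]
      refine Finset.sum_eq_zero fun m hm => ?_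
      obtain ⟨i, hi, -⟩ := hS m hm
      rw [integral_add (hmi m _) (hmi (-m) _), integral_const_mul, integral_const_mul,
        T3a_int_zero k m i (by omega), T3a_int_zero k (-m) i (by
          rw [Pi.neg_apply, hi]; omega), mul_zero, mul_zero, add_zero]
    have hSb : ∀ x, ‖S x‖ ≤ ∑ m ∈ Sp, (‖c m‖ + ‖c m‖) := by
      intro x
      refine (norm_sum_le _ _).trans (Finset.sum_le_sum fun m _ => ?_)
      refine (norm_add_le _ _).trans ?_
      rw [norm_mul, norm_mul, T3a_norm_mF, T3a_norm_mF, mul_one, mul_one, RCLike.norm_conj]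
    have hb : ∀ x, |‖(F x : ℂ) - S x‖| ≤ 1 + ∑ m ∈ Sp, (‖c m‖ + ‖c m‖) := by
      intro x
      rw [abs_norm]
      refine (norm_sub_le _ _).trans (add_le_add ?_ (hSb x))
      rcases hF1 x with hx | hx <;> simp [hx]
    rw [T3a_vol] at hI ⊢
    have hcs := T3a_cs (T3amu k) (fun x => ‖(F x : ℂ) - S x‖) (hFc.sub hSm).norm _ hb
    have h3 : (∫ x, ‖(F x : ℂ) - S x‖ ∂(T3amu k)) ≤ ε := by
      have h4 : (∫ x, ‖(F x : ℂ) - S x‖ ∂(T3amu k)) ^ 2 ≤ ε ^ 2 :=
        hcs.trans (hI.trans (min_le_right _ _))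
      exact (sq_le_sq₀ (integral_nonneg fun x => norm_nonneg _) hε.le).1 h4
    have h5 : ∫ x, ((F x : ℂ) - S x) ∂(T3amu k) = ((∫ x, F x ∂(T3amu k) : ℝ) : ℂ) := by
      rw [integral_sub hFi hSi, hS0, sub_zero]
      exact integral_ofReal
    have h6 : |∫ x, F x ∂(T3amu k)| = ‖∫ x, ((F x : ℂ) - S x) ∂(T3amu k)‖ := by
      rw [h5, Complex.norm_real, Real.norm_eq_abs]
    rw [h6]
    exact (norm_integral_le_integral_norm _).trans h3
  · simp_rw [hsg, hP]
    exact hI.trans (min_le_left _ _)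

end Vale.Agent.P130B
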