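import Vale.Agent.Lib.P130B.F.Defs

/-!
# P130B part I, module T3b

L2 density of trig polynomials on UnitAddTorus (UnitAddTorus.hasSum_mFourier_series_L2 or span_mFourierLp_closure_eq_top); take Fourier coefficients on a symmetric box; real function: coeff(-m) = conj coeff(m).
-/

namespace Vale.Agent.P130B

open MeasureTheory Filter Topology Vale.Agent.P110F
open scoped ComplexConjugate

section Aux

attribute [local instance] instMeasureSpaceUnitAddCircle instIsAddHaarMeasureUnitAddCircleVolume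

private instance T3b_prob : IsProbabilityMeasure (volume : Measure UnitAddCircle) :=
  inferInstanceAs (IsProbabilityMeasure AddCircle.haarAddCircle)

private theorem T3b_norm_sq {k : ℕ} (g : Lp ℂ 2 (volume : Measure (UnitAddTorus (Fin k)))) :
    ‖g‖ ^ 2 = ∫ x, ‖g x‖ ^ 2 := by
  have h1 : ‖g‖ ^ 2 = RCLike.re (inner ℂ g g) := (inner_self_eq_norm_sq (𝕜 := ℂ) g).symm
  rw [h1, L2.inner_def, ← integral_re (L2.integrable_inner g g)]
  simp only [inner_self_eq_norm_sq]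

private theorem T3b_aux {k : ℕ} (C : UnitAddTorus (Fin k) → ℝ) (hC : Measurable C)
    (hC1 : ∀ x, |C x| ≤ 1) {ε : ℝ} (hε : 0 < ε) :
    ∃ (Λ : Finset (Fin k → ℤ)) (c : (Fin k → ℤ) → ℂ), (∀ m ∈ Λ, -m ∈ Λ) ∧
      (∀ m ∈ Λ, c (-m) = conj (c m)) ∧
      ∫ x, ‖(C x : ℂ) - ∑ m ∈ Λ, c m * UnitAddTorus.mFourier m x‖ ^ 2
        ∂(Measure.pi fun _ : Fin k => (AddCircle.haarAddCircle : Measure UnitAddCircle)) ≤ ε := by
  classical
  have hmem : MemLp (fun x => (C x : ℂ)) 2 (volume : Measure (UnitAddTorus (Fin k))) := by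
    refine MemLp.of_bound (Complex.measurable_ofReal.comp hC).aestronglyMeasurable 1 ?_
    refine Filter.Eventually.of_forall fun x => ?_
    rw [Complex.norm_real, Real.norm_eq_abs]
    exact hC1 x
  set f : Lp ℂ 2 (volume : Measure (UnitAddTorus (Fin k))) := hmem.toLp _ with hf
  have hfC : f =ᵐ[volume] fun x => (C x : ℂ) := hmem.coeFn_toLp
  set c : (Fin k → ℤ) → ℂ := fun m => UnitAddTorus.mFourierCoeff (fun x => (C x : ℂ)) m with hc
  have hcoef : ∀ m, UnitAddTorus.mFourierCoeff f m = c m := by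
    intro m
    refine integral_congr_ae ?_
    filter_upwards [hfC] with x hx
    rw [hx]
  have hsum := UnitAddTorus.hasSum_mFourier_series_L2 f
  simp only [hcoef] at hsum
  have ht : Tendsto (fun s : Finset (Fin k → ℤ) =>
      ∑ i ∈ s, c i • UnitAddTorus.mFourierLp 2 i) atTop (𝓝 f) := hsum
  obtain ⟨s₀, hs₀⟩ := (Metric.tendsto_atTop.1 ht) (Real.sqrt ε) (Real.sqrt_pos.2 hε)
  refine ⟨s₀ ∪ s₀.image (fun m => -m), c, ?_, ?_, ?_⟩
  · intro m hm
    rcases Finset.mem_union.1 hm with h | h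
    · exact Finset.mem_union_right _ (Finset.mem_image_of_mem _ h)
    · obtain ⟨m', hm', rfl⟩ := Finset.mem_image.1 h
      rw [neg_neg]
      exact Finset.mem_union_left _ hm'
  · intro m _
    change ∫ t, UnitAddTorus.mFourier (-(-m)) t • (C t : ℂ) =
      conj (∫ t, UnitAddTorus.mFourier (-m) t • (C t : ℂ))
    rw [← integral_conj]
    refine integral_congr_ae (Filter.Eventually.of_forall fun t => ?_)
    change UnitAddTorus.mFourier (-(-m)) t • (C t : ℂ) =
      conj (UnitAddTorus.mFourier (-m) t • (C t : ℂ))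
    rw [smul_eq_mul, smul_eq_mul, map_mul, Complex.conj_ofReal, UnitAddTorus.mFourier_neg (n := -m)]
  · set Λ := s₀ ∪ s₀.image (fun m => -m) with hΛ
    have h1 := hs₀ Λ Finset.subset_union_left
    have h2 : (∑ m ∈ Λ, c m • UnitAddTorus.mFourierLp 2 m :
        Lp ℂ 2 (volume : Measure (UnitAddTorus (Fin k)))) =
        ContinuousMap.toLp (E := ℂ) 2 volume ℂ (∑ m ∈ Λ, c m • UnitAddTorus.mFourier m) := by
      rw [map_sum]
      refine Finset.sum_congr rfl fun m _ => ?_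
      rw [map_smul]
    rw [h2, dist_comm, dist_eq_norm] at h1
    have h3 : (f - ContinuousMap.toLp (E := ℂ) 2 volume ℂ
        (∑ m ∈ Λ, c m • UnitAddTorus.mFourier m) :
          Lp ℂ 2 (volume : Measure (UnitAddTorus (Fin k)))) =ᵐ[volume]
        fun x => (C x : ℂ) - ∑ m ∈ Λ, c m * UnitAddTorus.mFourier m x := by
      filter_upwards [Lp.coeFn_sub f (ContinuousMap.toLp (E := ℂ) 2 volume ℂ
        (∑ m ∈ Λ, c m • UnitAddTorus.mFourier m)), hfC,
        ContinuousMap.coeFn_toLp (𝕜 := ℂ) (p := 2) volume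
          (∑ m ∈ Λ, c m • UnitAddTorus.mFourier m)] with x hx1 hx2 hx3
      rw [hx1, Pi.sub_apply, hx2, hx3, ContinuousMap.sum_apply]
      rfl
    change ∫ x, ‖(C x : ℂ) - ∑ m ∈ Λ, c m * UnitAddTorus.mFourier m x‖ ^ 2 ≤ ε
    have h4 : ∫ x, ‖(C x : ℂ) - ∑ m ∈ Λ, c m * UnitAddTorus.mFourier m x‖ ^ 2 =
        ‖f - ContinuousMap.toLp (E := ℂ) 2 volume ℂ
          (∑ m ∈ Λ, c m • UnitAddTorus.mFourier m)‖ ^ 2 := by
      rw [T3b_norm_sq]
      refine integral_congr_ae ?_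
      filter_upwards [h3] with x hx
      rw [hx]
    rw [h4]
    calc ‖f - ContinuousMap.toLp (E := ℂ) 2 volume ℂ
          (∑ m ∈ Λ, c m • UnitAddTorus.mFourier m)‖ ^ 2 ≤ Real.sqrt ε ^ 2 :=
          pow_le_pow_left₀ (norm_nonneg _) h1.le 2
      _ = ε := Real.sq_sqrt hε.le

end Aux

theorem exists_trig_approx {k : ℕ} (C : UnitAddTorus (Fin k) → ℝ) (hC : Measurable C)
    (hC1 : ∀ x, |C x| ≤ 1) {ε : ℝ} (hε : 0 < ε) :
    ∃ (Λ : Finset (Fin k → ℤ)) (c : (Fin k → ℤ) → ℂ), (∀ m ∈ Λ, -m ∈ Λ) ∧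
      (∀ m ∈ Λ, c (-m) = conj (c m)) ∧
      ∫ x, ‖(C x : ℂ) - ∑ m ∈ Λ, c m * UnitAddTorus.mFourier m x‖ ^ 2 ≤ ε := by
  have h1 : (volume : Measure UnitAddCircle) = AddCircle.haarAddCircle := by
    rw [AddCircle.volume_eq_smul_haarAddCircle]
    simp
  have h2 : (volume : Measure (UnitAddTorus (Fin k))) =
      Measure.pi fun _ : Fin k => (AddCircle.haarAddCircle : Measure UnitAddCircle) := by
    rw [← h1]
    rfl
  obtain ⟨Λ, c, h3, h4, h5⟩ := T3b_aux C hC hC1 hε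
  refine ⟨Λ, c, h3, h4, ?_⟩
  rw [h2]
  exact h5

end Vale.Agent.P130B
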