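import Vale.Agent.Lib.P130B.F.Defs

/-!
# P130B part I, module T3c

measure: volume on UnitAddTorus is the pi measure; MeasurableEquiv.piFinAdd-like / volume_preserving of Fin.append; LNO: last nonzero entry is 1.
-/

namespace Vale.Agent.P130B

open MeasureTheory Filter Topology Vale.Agent.P110F
open scoped ComplexConjugate

theorem mp_pfst (k l : ℕ) :
    MeasurePreserving (fun x : UnitAddTorus (Fin (k + l)) => (pfst x, psnd x)) volume
      (volume.prod volume) := by
  have h1 := (volume_measurePreserving_piCongrLeft (fun _ : Fin (k + l) => UnitAddCircle)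
    finSumFinEquiv).symm
  have h2 := volume_measurePreserving_sumPiEquivProdPi
    (fun _ : Fin k ⊕ Fin l => UnitAddCircle)
  exact h2.comp h1

theorem mFourier_jn {k l : ℕ} (m : Fin k → ℤ) (m' : Fin l → ℤ) (x : UnitAddTorus (Fin (k + l))) :
    UnitAddTorus.mFourier (jn m m') x =
      UnitAddTorus.mFourier m (pfst x) * UnitAddTorus.mFourier m' (psnd x) := by
  show ∏ i : Fin (k + l), fourier (jn m m' i) (x i) =
    (∏ i : Fin k, fourier (m i) (pfst x i)) * ∏ i : Fin l, fourier (m' i) (psnd x i)
  rw [Fin.prod_univ_add]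
  simp only [jn, Fin.append_left, Fin.append_right, pfst, psnd]

theorem LNO_jn_left {k l : ℕ} {m : Fin k → ℤ} (h : LNO m) : LNO (jn m (0 : Fin l → ℤ)) := by
  obtain ⟨i, hi, hj⟩ := h
  refine ⟨Fin.castAdd l i, ?_, fun j hlt => ?_⟩
  · unfold jn
    rw [Fin.append_left]
    exact hi
  · revert hlt
    refine Fin.addCases (fun j' hlt => ?_) (fun j' _ => ?_) j
    · unfold jn
      rw [Fin.append_left]
      refine hj j' ?_
      rw [Fin.lt_def] at hlt ⊢
      exact hlt
    · unfold jn
      rw [Fin.append_right]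
      rfl

theorem LNO_jn_right {k l : ℕ} (m : Fin k → ℤ) {m' : Fin l → ℤ} (h : LNO m') :
    LNO (jn m m') := by
  obtain ⟨i, hi, hj⟩ := h
  refine ⟨Fin.natAdd k i, ?_, fun j hlt => ?_⟩
  · unfold jn
    rw [Fin.append_right]
    exact hi
  · revert hlt
    refine Fin.addCases (fun j' hlt => ?_) (fun j' hlt => ?_) j
    · exfalso
      rw [Fin.lt_def] at hlt
      have h1 : (Fin.castAdd l j' : Fin (k + l)).val = j'.val := rfl
      have h2 : (Fin.natAdd k i : Fin (k + l)).val = k + i.val := rfl
      have h3 := j'.2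
      omega
    · unfold jn
      rw [Fin.append_right]
      refine hj j' ?_
      rw [Fin.lt_def] at hlt ⊢
      have h1 : (Fin.natAdd k j' : Fin (k + l)).val = k + j'.val := rfl
      have h2 : (Fin.natAdd k i : Fin (k + l)).val = k + i.val := rfl
      omega

end Vale.Agent.P130B
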