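import Vale.Agent.Lib.P130B.F.T3a
import Vale.Agent.Lib.P130B.F.T3b
import Vale.Agent.Lib.P130B.F.T3c

/-!
# P130B part I, module T3d

real1_step: torus k + l, old data pulled back by pfst (sum over old modes: jn m 0), new sign F(psnd x); term C_n(sigma) F approx (trig approx of C_n o sigma from T3b) times (S_F from T3a): | C (F - S_F) | <= |F - S_F|, | (C - Ct) S_F | <= B |C - Ct| with B = sup of S_F (choose T3a first, then T3b with tiny eps); new modes jn l m, coefficient chat(l) c(m), label lab n; Real1 with eps/10 etc; (a+b)^2 <= 2a^2+2b^2; old and new modes are disjoint (last block zero or not), F exists; use Finset.disjUnion/union with piecewise c and a. Frequencies -(jn l m) come from the symmetric Lambda. For the law: int f = int over x of (f(..,true)+f(..,false))/2 + mean(F)/2 *(difference) by Fubini (mp_pfst). exists_tree: induction (base: k = 0, Sp = empty).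
-/

namespace Vale.Agent.P130B

open MeasureTheory Filter Topology Vale.Agent.P110F
open scoped ComplexConjugate

/-- realization of a sign tree: state after `n` signs -/
def Real1 (n : ℕ) (C : ℕ → (ℕ → Bool) → ℝ) (lab : ℕ → ℕ) (ε : ℝ) (k : ℕ)
    (σ : UnitAddTorus (Fin k) → ℕ → Bool) (Sp : Finset (Fin k → ℤ)) (c : (Fin k → ℤ) → ℂ)
    (a : (Fin k → ℤ) → ℕ) : Prop :=
  (∀ q, Measurable fun x => σ x q) ∧ (∀ x q, n ≤ q → σ x q = false) ∧
  (∀ m ∈ Sp, LNO m) ∧ (∀ m ∈ Sp, ∃ q < n, a m = lab q) ∧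
  (∀ θ, ∫ x, ‖∑ q ∈ Finset.range n, ((C q (σ x) * sgn (σ x q) : ℝ) : ℂ) *
    e1 ((lab q : ℝ) * θ) - PolS Sp c a θ x‖ ^ 2 ≤ ε) ∧
  ∀ f : (Fin n → Bool) → ℝ, (∀ τ, 0 ≤ f τ ∧ f τ ≤ 1) →
    |∫ x, f (fun i => σ x i) - (∑ τ, f τ) / 2 ^ n| ≤ ε

private theorem T3d_fst {k l : ℕ} (m : Fin k → ℤ) (m' : Fin l → ℤ) :
    (fun i => jn m m' (Fin.castAdd l i)) = m := by
  funext i
  exact Fin.append_left m m' i

private theorem T3d_snd {k l : ℕ} (m : Fin k → ℤ) (m' : Fin l → ℤ) :
    (fun i => jn m m' (Fin.natAdd k i)) = m' := by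
  funext i
  exact Fin.append_right m m' i

private theorem T3d_inj {k l : ℕ} {m n : Fin k → ℤ} {m' n' : Fin l → ℤ}
    (h : jn m m' = jn n n') : m = n ∧ m' = n' := by
  constructor
  · rw [← T3d_fst m m', h, T3d_fst]
  · rw [← T3d_snd m m', h, T3d_snd]

private theorem T3d_neg {k l : ℕ} (m : Fin k → ℤ) (m' : Fin l → ℤ) :
    -jn m m' = jn (-m) (-m') := by
  funext i
  refine Fin.addCases (fun i => ?_) (fun i => ?_) i
  · change -(Fin.append m m' (Fin.castAdd l i)) = Fin.append (-m) (-m') (Fin.castAdd l i)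
    rw [Fin.append_left, Fin.append_left, Pi.neg_apply]
  · change -(Fin.append m m' (Fin.natAdd k i)) = Fin.append (-m) (-m') (Fin.natAdd k i)
    rw [Fin.append_right, Fin.append_right, Pi.neg_apply]

private theorem T3d_mF0 {l : ℕ} (y : UnitAddTorus (Fin l)) :
    UnitAddTorus.mFourier (0 : Fin l → ℤ) y = 1 := by
  rw [UnitAddTorus.mFourier_zero]
  rfl

private noncomputable def T3dC {k l : ℕ} (c d : (Fin k → ℤ) → ℂ) (e : (Fin l → ℤ) → ℂ)
    (M : Fin (k + l) → ℤ) : ℂ :=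
  if (fun i => M (Fin.natAdd k i)) = 0 then c (fun i => M (Fin.castAdd l i))
  else d (fun i => M (Fin.castAdd l i)) * e (fun i => M (Fin.natAdd k i))

private def T3dA {k : ℕ} (l : ℕ) (a : (Fin k → ℤ) → ℕ) (A : ℕ) (M : Fin (k + l) → ℤ) : ℕ :=
  if (fun i => M (Fin.natAdd k i)) = 0 then a (fun i => M (Fin.castAdd l i)) else A

private def T3dS {k l : ℕ} (Sp Λ : Finset (Fin k → ℤ)) (SF : Finset (Fin l → ℤ)) :
    Finset (Fin (k + l) → ℤ) :=
  Sp.image (fun m => jn m (0 : Fin l → ℤ)) ∪ (Λ ×ˢ SF).image (fun p => jn p.1 p.2)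

private theorem T3dC_old {k l : ℕ} (c d : (Fin k → ℤ) → ℂ) (e : (Fin l → ℤ) → ℂ)
    (m : Fin k → ℤ) : T3dC c d e (jn m 0) = c m := by
  unfold T3dC
  rw [T3d_snd, if_pos rfl, T3d_fst]

private theorem T3dC_new {k l : ℕ} (c d : (Fin k → ℤ) → ℂ) (e : (Fin l → ℤ) → ℂ)
    (m : Fin k → ℤ) {m' : Fin l → ℤ} (h : m' ≠ 0) : T3dC c d e (jn m m') = d m * e m' := by
  unfold T3dC
  rw [T3d_snd, if_neg h, T3d_fst]

private theorem T3dA_old {k l : ℕ} (a : (Fin k → ℤ) → ℕ) (A : ℕ)
    (m : Fin k → ℤ) : T3dA l a A (jn m 0) = a m := by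
  unfold T3dA
  rw [T3d_snd, if_pos rfl, T3d_fst]

private theorem T3dA_new {k l : ℕ} (a : (Fin k → ℤ) → ℕ) (A : ℕ)
    (m : Fin k → ℤ) {m' : Fin l → ℤ} (h : m' ≠ 0) : T3dA l a A (jn m m') = A := by
  unfold T3dA
  rw [T3d_snd, if_neg h]

private theorem T3d_LNO_ne {l : ℕ} {m : Fin l → ℤ} (h : LNO m) : m ≠ 0 := by
  rintro rfl
  obtain ⟨i, hi, -⟩ := h
  exact zero_ne_one hi

private theorem T3d_PolS {k l : ℕ} (Sp Λ : Finset (Fin k → ℤ)) (SF : Finset (Fin l → ℤ))
    (c d : (Fin k → ℤ) → ℂ) (e : (Fin l → ℤ) → ℂ) (a : (Fin k → ℤ) → ℕ) (A : ℕ)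
    (hSF : ∀ m ∈ SF, LNO m) (hΛ : ∀ m ∈ Λ, -m ∈ Λ) (hd : ∀ m ∈ Λ, d (-m) = conj (d m))
    (θ : ℝ) (x : UnitAddTorus (Fin (k + l))) :
    PolS (T3dS Sp Λ SF) (T3dC c d e) (T3dA l a A) θ x = PolS Sp c a θ (pfst x) +
      e1 ((A : ℝ) * θ) * ((∑ m ∈ Λ, d m * UnitAddTorus.mFourier m (pfst x)) *
        PolS SF e (fun _ => 0) 0 (psnd x)) := by
  unfold PolS T3dS
  rw [Finset.sum_union]
  · congr 1
    · rw [Finset.sum_image (fun m _ m' _ h => (T3d_inj h).1)]
      refine Finset.sum_congr rfl fun m _ => ?_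
      rw [T3dC_old, T3dA_old, T3d_neg, neg_zero, mFourier_jn, mFourier_jn, T3d_mF0, mul_one,
        mul_one]
    · rw [Finset.sum_image (fun p _ p' _ h => Prod.ext (T3d_inj h).1 (T3d_inj h).2),
        Finset.sum_product]
      have hsym : ∑ m ∈ Λ, conj (d m) * UnitAddTorus.mFourier (-m) (pfst x) =
          ∑ m ∈ Λ, d m * UnitAddTorus.mFourier m (pfst x) := by
        refine Finset.sum_bij (fun m _ => -m) hΛ (fun m _ m' _ h => neg_injective h)
          (fun m hm => ⟨-m, hΛ m hm, neg_neg m⟩) (fun m hm => ?_)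
        rw [hd m hm]
      have h1 : ∀ m ∈ Λ, ∀ m' ∈ SF,
          e1 ((T3dA l a A (jn m m') : ℝ) * θ) * (T3dC c d e (jn m m') *
            UnitAddTorus.mFourier (jn m m') x + conj (T3dC c d e (jn m m')) *
            UnitAddTorus.mFourier (-jn m m') x) =
          e1 ((A : ℝ) * θ) * ((d m * UnitAddTorus.mFourier m (pfst x)) *
            (e m' * UnitAddTorus.mFourier m' (psnd x)) +
            (conj (d m) * UnitAddTorus.mFourier (-m) (pfst x)) *
            (conj (e m') * UnitAddTorus.mFourier (-m') (psnd x))) := by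
        intro m _ m' hm'
        have hne := T3d_LNO_ne (hSF m' hm')
        rw [T3dC_new _ _ _ _ hne, T3dA_new _ _ _ hne, T3d_neg, mFourier_jn, mFourier_jn, map_mul]
        ring
      rw [Finset.sum_congr rfl fun m hm => Finset.sum_congr rfl (h1 m hm)]
      simp only [Nat.cast_zero, zero_mul, e1_zero, one_mul]
      have h2 : ∑ m ∈ Λ, ∑ m' ∈ SF, e1 ((A : ℝ) * θ) * ((d m * UnitAddTorus.mFourier m (pfst x)) *
            (e m' * UnitAddTorus.mFourier m' (psnd x)) +
            (conj (d m) * UnitAddTorus.mFourier (-m) (pfst x)) *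
            (conj (e m') * UnitAddTorus.mFourier (-m') (psnd x))) =
          e1 ((A : ℝ) * θ) * ((∑ m ∈ Λ, d m * UnitAddTorus.mFourier m (pfst x)) *
            (∑ m' ∈ SF, e m' * UnitAddTorus.mFourier m' (psnd x)) +
            (∑ m ∈ Λ, conj (d m) * UnitAddTorus.mFourier (-m) (pfst x)) *
            (∑ m' ∈ SF, conj (e m') * UnitAddTorus.mFourier (-m') (psnd x))) := by
        rw [Finset.sum_mul_sum, Finset.sum_mul_sum, ← Finset.sum_add_distrib, Finset.mul_sum]
        refine Finset.sum_congr rfl fun m _ => ?_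
        rw [← Finset.sum_add_distrib, Finset.mul_sum]
      rw [h2, hsym, Finset.sum_add_distrib]
      ring
  · rw [Finset.disjoint_left]
    intro M h1 h2
    rw [Finset.mem_image] at h1 h2
    obtain ⟨m, _, rfl⟩ := h1
    obtain ⟨p, hp, h3⟩ := h2
    rw [Finset.mem_product] at hp
    exact T3d_LNO_ne (hSF _ hp.2) (T3d_inj h3).2

private theorem T3d_cont {k : ℕ} (Sp : Finset (Fin k → ℤ)) (c : (Fin k → ℤ) → ℂ)
    (a : (Fin k → ℤ) → ℕ) (θ : ℝ) : Continuous (PolS Sp c a θ) := by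
  unfold PolS
  refine continuous_finsetSum _ fun m _ => ?_
  exact continuous_const.mul ((continuous_const.mul (UnitAddTorus.mFourier m).continuous).add
    (continuous_const.mul (UnitAddTorus.mFourier (-m)).continuous))

private theorem T3d_bound {k : ℕ} {g : UnitAddTorus (Fin k) → ℂ} (hg : Continuous g) :
    ∃ B : ℝ, 0 ≤ B ∧ ∀ x, ‖g x‖ ≤ B := by
  obtain ⟨B, hB⟩ := isCompact_univ.exists_bound_of_continuousOn hg.continuousOn
  exact ⟨max B 0, le_max_right _ _, fun x => (hB x (Set.mem_univ x)).trans (le_max_left _ _)⟩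

private theorem T3d_meas_C {k : ℕ} {C : ℕ → (ℕ → Bool) → ℝ}
    (hC : ∀ q σ σ', (∀ i < q, σ i = σ' i) → C q σ = C q σ')
    {σ : UnitAddTorus (Fin k) → ℕ → Bool} (hσ : ∀ q, Measurable fun x => σ x q) (q : ℕ) :
    Measurable fun x => C q (σ x) := by
  have h1 : (fun x => C q (σ x)) = fun x => C q (ext (fun i : Fin q => σ x i)) := by
    funext x
    refine hC q _ _ fun i hi => ?_
    unfold ext
    rw [dif_pos hi]
  rw [h1]
  have h2 : Measurable fun x => (fun i : Fin q => σ x i) := measurable_pi_lambda _ fun i => hσ i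
  have h3 : Measurable fun τ : Fin q → Bool => C q (ext τ) := measurable_of_finite _
  exact h3.comp h2

private theorem T3d_prob (k : ℕ) :
    IsProbabilityMeasure (volume : Measure (UnitAddTorus (Fin k))) := by
  constructor
  rw [volume_pi, Measure.pi_univ]
  simp [AddCircle.measure_univ]

private theorem T3d_sub_const {k : ℕ} {g : UnitAddTorus (Fin k) → ℝ} (hg : Integrable g)
    (A : ℝ) : ∫ x, (g x - A) = (∫ x, g x) - A := by
  have := T3d_prob k
  rw [integral_sub hg (integrable_const _), integral_const]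
  simp

private theorem T3d_pf (k l : ℕ) : MeasurePreserving
    (fun x : UnitAddTorus (Fin (k + l)) => (pfst x : UnitAddTorus (Fin k))) volume volume := by
  have := T3d_prob l
  exact measurePreserving_fst.comp (mp_pfst k l)

private theorem T3d_ps (k l : ℕ) : MeasurePreserving
    (fun x : UnitAddTorus (Fin (k + l)) => (psnd x : UnitAddTorus (Fin l))) volume volume := by
  have := T3d_prob k
  exact measurePreserving_snd.comp (mp_pfst k l)

private theorem T3d_int_f {k l : ℕ} {g : UnitAddTorus (Fin k) → ℝ} (hg : Measurable g) :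
    ∫ x : UnitAddTorus (Fin (k + l)), g (pfst x) = ∫ y, g y := by
  rw [← (T3d_pf k l).map_eq, integral_map (T3d_pf k l).measurable.aemeasurable
    hg.aestronglyMeasurable]

private theorem T3d_int_s {k l : ℕ} {g : UnitAddTorus (Fin l) → ℝ} (hg : Measurable g) :
    ∫ x : UnitAddTorus (Fin (k + l)), g (psnd x) = ∫ y, g y := by
  rw [← (T3d_ps k l).map_eq, integral_map (T3d_ps k l).measurable.aemeasurable
    hg.aestronglyMeasurable]

private theorem T3d_int_fs {k l : ℕ} {g : UnitAddTorus (Fin k) → ℝ}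
    {h : UnitAddTorus (Fin l) → ℝ} (hg : Measurable g) (hh : Measurable h) :
    ∫ x : UnitAddTorus (Fin (k + l)), g (pfst x) * h (psnd x) = (∫ y, g y) * ∫ z, h z := by
  have h1 : Measurable fun p : UnitAddTorus (Fin k) × UnitAddTorus (Fin l) => g p.1 * h p.2 :=
    (hg.comp measurable_fst).mul (hh.comp measurable_snd)
  rw [← integral_prod_mul, ← (mp_pfst k l).map_eq,
    integral_map (mp_pfst k l).measurable.aemeasurable h1.aestronglyMeasurable]

private theorem T3d_integrable {k : ℕ} {g : UnitAddTorus (Fin k) → ℝ} (hg : Measurable g) (B : ℝ)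
    (hB : ∀ x, |g x| ≤ B) : Integrable g :=
  Integrable.of_bound hg.aestronglyMeasurable B (Eventually.of_forall hB)

private theorem T3d_sgn_abs (b : Bool) : |sgn b| = 1 := by
  unfold sgn
  cases b <;> simp

private theorem T3d_meas_sgn : Measurable sgn := measurable_of_finite _

private theorem T3d_sum_snoc (n : ℕ) (f : (Fin (n + 1) → Bool) → ℝ) :
    (∑ τ, f τ) / 2 ^ (n + 1) = (∑ τ : Fin n → Bool, (f (Fin.snoc τ true) +
      f (Fin.snoc τ false)) / 2) / 2 ^ n := by
  have h1 : ∑ τ, f τ = ∑ τ : Fin n → Bool, (f (Fin.snoc τ true) + f (Fin.snoc τ false)) := by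
    rw [← (Fin.snocEquiv (fun _ => Bool)).sum_comp f, Fintype.sum_prod_type, Fintype.sum_bool,
      ← Finset.sum_add_distrib]
    rfl
  rw [h1, ← Finset.sum_div, div_div, pow_succ, mul_comm (2 : ℝ)]

theorem real1_step (n : ℕ) (C : ℕ → (ℕ → Bool) → ℝ) (lab : ℕ → ℕ)
    (hC : ∀ q σ σ', (∀ i < q, σ i = σ' i) → C q σ = C q σ') (hC1 : ∀ q σ, |C q σ| ≤ 1)
    (h : ∀ ε : ℝ, 0 < ε → ∃ k σ Sp c a, Real1 n C lab ε k σ Sp c a) :
    ∀ ε : ℝ, 0 < ε → ∃ k σ Sp c a, Real1 (n + 1) C lab ε k σ Sp c a := by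
  intro ε hε
  obtain ⟨l, F, SF, e, hFm, hSF, hF1, hF2⟩ := exists_sign (ε := ε / 16) (by positivity)
  obtain ⟨B, hB0, hB⟩ := T3d_bound (T3d_cont SF e (fun _ => 0) 0)
  obtain ⟨k, σ, Sp, c, a, h1, h2, h3, h4, h5, h6⟩ := h (ε / 8) (by positivity)
  obtain ⟨Λ, d, hΛ, hd, hCt⟩ := exists_trig_approx (fun x => C n (σ x)) (T3d_meas_C hC h1 n)
    (fun x => hC1 n (σ x)) (ε := ε / (16 * (B ^ 2 + 1))) (by positivity)
  obtain ⟨σ', hσ'⟩ : ∃ σ' : UnitAddTorus (Fin (k + l)) → ℕ → Bool, σ' = fun x q =>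
      if q < n then σ (pfst x) q else if q = n then F (psnd x) else false := ⟨_, rfl⟩
  have hlt : ∀ x q, q < n → σ' x q = σ (pfst x) q := by
    intro x q hq
    rw [hσ']
    exact if_pos hq
  have hn : ∀ x, σ' x n = F (psnd x) := by
    intro x
    rw [hσ']
    simp
  have hm' : ∀ q, Measurable fun x => σ' x q := by
    intro q
    rw [hσ']
    by_cases hq : q < n
    · simp only [if_pos hq]
      exact (h1 q).comp (T3d_pf k l).measurable
    · by_cases hq' : q = n
      · simp only [if_neg hq, if_pos hq']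
        exact hFm.comp (T3d_ps k l).measurable
      · simp only [if_neg hq, if_neg hq']
        exact measurable_const
  refine ⟨k + l, σ', T3dS Sp Λ SF, T3dC c d e, T3dA l a (lab n), hm', ?_, ?_, ?_, ?_, ?_⟩
  · intro x q hq
    rw [hσ']
    change (if q < n then _ else if q = n then _ else false) = false
    rw [if_neg (by omega), if_neg (by omega)]
  · intro M hM
    unfold T3dS at hM
    rw [Finset.mem_union, Finset.mem_image, Finset.mem_image] at hM
    rcases hM with ⟨m, hm, rfl⟩ | ⟨p, hp, rfl⟩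
    · exact LNO_jn_left (h3 m hm)
    · exact LNO_jn_right _ (hSF _ (Finset.mem_product.1 hp).2)
  · intro M hM
    unfold T3dS at hM
    rw [Finset.mem_union, Finset.mem_image, Finset.mem_image] at hM
    rcases hM with ⟨m, hm, rfl⟩ | ⟨p, hp, rfl⟩
    · obtain ⟨q, hq, hqa⟩ := h4 m hm
      exact ⟨q, by omega, by rw [T3dA_old, hqa]⟩
    · exact ⟨n, by omega, T3dA_new _ _ _ (T3d_LNO_ne (hSF _ (Finset.mem_product.1 hp).2))⟩
  · intro θ
    obtain ⟨D1, hD1⟩ : ∃ D1 : UnitAddTorus (Fin k) → ℂ, D1 = fun y =>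
      ∑ q ∈ Finset.range n, ((C q (σ y) * sgn (σ y q) : ℝ) : ℂ) * e1 ((lab q : ℝ) * θ) -
        PolS Sp c a θ y := ⟨_, rfl⟩
    obtain ⟨D2, hD2⟩ : ∃ D2 : UnitAddTorus (Fin l) → ℂ, D2 = fun z =>
      (sgn (F z) : ℂ) - PolS SF e (fun _ => 0) 0 z := ⟨_, rfl⟩
    obtain ⟨D3, hD3⟩ : ∃ D3 : UnitAddTorus (Fin k) → ℂ, D3 = fun y =>
      (C n (σ y) : ℂ) - ∑ m ∈ Λ, d m * UnitAddTorus.mFourier m y := ⟨_, rfl⟩
    have hCt_cont : Continuous fun y : UnitAddTorus (Fin k) =>
        ∑ m ∈ Λ, d m * UnitAddTorus.mFourier m y :=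
      continuous_finsetSum _ fun m _ =>
        continuous_const.mul (UnitAddTorus.mFourier m).continuous
    have hm1 : Measurable D1 := by
      rw [hD1]
      refine (Finset.measurable_sum _ fun q _ => ?_).sub (T3d_cont Sp c a θ).measurable
      exact (Complex.measurable_ofReal.comp ((T3d_meas_C hC h1 q).mul
        (T3d_meas_sgn.comp (h1 q)))).mul_const _
    have hm2 : Measurable D2 := by
      rw [hD2]
      exact (Complex.measurable_ofReal.comp (T3d_meas_sgn.comp hFm)).sub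
        (T3d_cont SF e (fun _ => 0) 0).measurable
    have hm3 : Measurable D3 := by
      rw [hD3]
      exact (Complex.measurable_ofReal.comp (T3d_meas_C hC h1 n)).sub hCt_cont.measurable
    -- bounds
    obtain ⟨B1, hB10, hB1⟩ := T3d_bound (T3d_cont Sp c a θ)
    obtain ⟨B3, hB30, hB3⟩ := T3d_bound hCt_cont
    have hb1 : ∀ y, ‖D1 y‖ ≤ n + B1 := by
      intro y
      rw [hD1]
      refine (norm_sub_le _ _).trans (add_le_add ?_ (hB1 y))
      refine (norm_sum_le _ _).trans ?_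
      calc ∑ q ∈ Finset.range n, ‖((C q (σ y) * sgn (σ y q) : ℝ) : ℂ) * e1 ((lab q : ℝ) * θ)‖
          ≤ ∑ _q ∈ Finset.range n, (1 : ℝ) := Finset.sum_le_sum fun q _ => by
            rw [norm_mul, norm_e1, mul_one, Complex.norm_real, Real.norm_eq_abs, abs_mul,
              T3d_sgn_abs, mul_one]
            exact hC1 q _
        _ = n := by simp
    have hb2 : ∀ z, ‖D2 z‖ ≤ 1 + B := by
      intro z
      rw [hD2]
      refine (norm_sub_le _ _).trans (add_le_add ?_ (hB z))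
      rw [Complex.norm_real, Real.norm_eq_abs, T3d_sgn_abs]
    have hb3 : ∀ y, ‖D3 y‖ ≤ 1 + B3 := by
      intro y
      rw [hD3]
      refine (norm_sub_le _ _).trans (add_le_add ?_ (hB3 y))
      rw [Complex.norm_real, Real.norm_eq_abs]
      exact hC1 n _
    have hsq : ∀ {j : ℕ} {D : UnitAddTorus (Fin j) → ℂ} (b : ℝ), Measurable D →
        (∀ y, ‖D y‖ ≤ b) → (Measurable fun y => ‖D y‖ ^ 2) ∧ ∀ y, |‖D y‖ ^ 2| ≤ b ^ 2 := by
      intro j D b hD hb
      refine ⟨hD.norm.pow_const 2, fun y => ?_⟩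
      rw [abs_of_nonneg (sq_nonneg _)]
      exact pow_le_pow_left₀ (norm_nonneg _) (hb y) 2
    obtain ⟨g1, g1b⟩ := hsq _ hm1 hb1
    obtain ⟨g2, g2b⟩ := hsq _ hm2 hb2
    obtain ⟨g3, g3b⟩ := hsq _ hm3 hb3
    have i1 : Integrable fun x : UnitAddTorus (Fin (k + l)) => ‖D1 (pfst x)‖ ^ 2 :=
      T3d_integrable (g1.comp (T3d_pf k l).measurable) _ fun x => g1b _
    have i2 : Integrable fun x : UnitAddTorus (Fin (k + l)) => ‖D2 (psnd x)‖ ^ 2 :=
      T3d_integrable (g2.comp (T3d_ps k l).measurable) _ fun x => g2b _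
    have i3 : Integrable fun x : UnitAddTorus (Fin (k + l)) => ‖D3 (pfst x)‖ ^ 2 :=
      T3d_integrable (g3.comp (T3d_pf k l).measurable) _ fun x => g3b _
    -- the decomposition
    have hdec : ∀ x, ∑ q ∈ Finset.range (n + 1), ((C q (σ' x) * sgn (σ' x q) : ℝ) : ℂ) *
        e1 ((lab q : ℝ) * θ) - PolS (T3dS Sp Λ SF) (T3dC c d e) (T3dA l a (lab n)) θ x =
        D1 (pfst x) + e1 ((lab n : ℝ) * θ) * ((C n (σ (pfst x)) : ℂ) * D2 (psnd x) +
          D3 (pfst x) * PolS SF e (fun _ => 0) 0 (psnd x)) := by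
      intro x
      have e1' : ∀ q ∈ Finset.range n, ((C q (σ' x) * sgn (σ' x q) : ℝ) : ℂ) *
          e1 ((lab q : ℝ) * θ) = ((C q (σ (pfst x)) * sgn (σ (pfst x) q) : ℝ) : ℂ) *
          e1 ((lab q : ℝ) * θ) := by
        intro q hq
        rw [Finset.mem_range] at hq
        rw [hlt x q hq, hC q (σ' x) (σ (pfst x)) fun i hi => hlt x i (hi.trans hq)]
      rw [Finset.sum_range_succ, Finset.sum_congr rfl e1', hn x,
        hC n (σ' x) (σ (pfst x)) fun i hi => hlt x i hi,
        T3d_PolS Sp Λ SF c d e a (lab n) hSF hΛ hd θ x, hD1, hD2, hD3]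
      push_cast
      ring
    have hpt : ∀ x, ‖∑ q ∈ Finset.range (n + 1), ((C q (σ' x) * sgn (σ' x q) : ℝ) : ℂ) *
        e1 ((lab q : ℝ) * θ) - PolS (T3dS Sp Λ SF) (T3dC c d e) (T3dA l a (lab n)) θ x‖ ^ 2 ≤
        2 * ‖D1 (pfst x)‖ ^ 2 + 4 * ‖D2 (psnd x)‖ ^ 2 + 4 * B ^ 2 * ‖D3 (pfst x)‖ ^ 2 := by
      intro x
      rw [hdec x]
      have q1 : ‖(C n (σ (pfst x)) : ℂ) * D2 (psnd x)‖ ≤ ‖D2 (psnd x)‖ := by
        rw [norm_mul, Complex.norm_real, Real.norm_eq_abs]
        exact mul_le_of_le_one_left (norm_nonneg _) (hC1 n _)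
      have q2 : ‖D3 (pfst x) * PolS SF e (fun _ => 0) 0 (psnd x)‖ ≤ ‖D3 (pfst x)‖ * B := by
        rw [norm_mul]
        exact mul_le_mul_of_nonneg_left (hB _) (norm_nonneg _)
      have q3 : ‖D1 (pfst x) + e1 ((lab n : ℝ) * θ) * ((C n (σ (pfst x)) : ℂ) * D2 (psnd x) +
          D3 (pfst x) * PolS SF e (fun _ => 0) 0 (psnd x))‖ ≤
          ‖D1 (pfst x)‖ + (‖D2 (psnd x)‖ + ‖D3 (pfst x)‖ * B) := by
        refine (norm_add_le _ _).trans (add_le_add le_rfl ?_)
        rw [norm_mul, norm_e1, one_mul]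
        exact (norm_add_le _ _).trans (add_le_add q1 q2)
      refine (pow_le_pow_left₀ (norm_nonneg _) q3 2).trans ?_
      nlinarith [sq_nonneg (‖D1 (pfst x)‖ - (‖D2 (psnd x)‖ + ‖D3 (pfst x)‖ * B)),
        sq_nonneg (‖D2 (psnd x)‖ - ‖D3 (pfst x)‖ * B)]
    have i12 : Integrable fun x : UnitAddTorus (Fin (k + l)) =>
        2 * ‖D1 (pfst x)‖ ^ 2 + 4 * ‖D2 (psnd x)‖ ^ 2 := (i1.const_mul _).add (i2.const_mul _)
    refine (integral_mono_of_nonneg (Eventually.of_forall fun x => sq_nonneg _)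
      (i12.add (i3.const_mul (4 * B ^ 2))) (Eventually.of_forall hpt)).trans ?_
    rw [integral_add' i12 (i3.const_mul _), integral_add (i1.const_mul _) (i2.const_mul _),
      integral_const_mul, integral_const_mul, integral_const_mul,
      T3d_int_f (l := l) g1, T3d_int_s (k := k) g2, T3d_int_f (l := l) g3]
    have r1 : ∫ y, ‖D1 y‖ ^ 2 ≤ ε / 8 := by
      rw [hD1]
      exact h5 θ
    have r2 : ∫ z, ‖D2 z‖ ^ 2 ≤ ε / 16 := by
      rw [hD2]
      exact hF2
    have r3 : ∫ y, ‖D3 y‖ ^ 2 ≤ ε / (16 * (B ^ 2 + 1)) := by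
      rw [hD3]
      exact hCt
    have r4 : 4 * B ^ 2 * (ε / (16 * (B ^ 2 + 1))) ≤ ε / 4 := by
      rw [← mul_div_assoc, div_le_div_iff₀ (by positivity) (by norm_num)]
      nlinarith [sq_nonneg B]
    have r5 : 4 * B ^ 2 * ∫ y, ‖D3 y‖ ^ 2 ≤ ε / 4 :=
      (mul_le_mul_of_nonneg_left r3 (by positivity)).trans r4
    linarith
  · intro f hf
    obtain ⟨u, hu⟩ : ∃ u : (Fin n → Bool) → ℝ, u = fun τ =>
      (f (Fin.snoc τ true) + f (Fin.snoc τ false)) / 2 := ⟨_, rfl⟩
    obtain ⟨v, hv⟩ : ∃ v : (Fin n → Bool) → ℝ, v = fun τ =>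
      (f (Fin.snoc τ true) - f (Fin.snoc τ false)) / 2 := ⟨_, rfl⟩
    have hu01 : ∀ τ, 0 ≤ u τ ∧ u τ ≤ 1 := by
      intro τ
      rw [hu]
      have a1 := hf (Fin.snoc τ true)
      have a2 := hf (Fin.snoc τ false)
      constructor <;> simp only <;> linarith [a1.1, a1.2, a2.1, a2.2]
    have hv01 : ∀ τ, |v τ| ≤ 1 / 2 := by
      intro τ
      rw [hv]
      have a1 := hf (Fin.snoc τ true)
      have a2 := hf (Fin.snoc τ false)
      rw [abs_le]
      constructor <;> simp only <;> linarith [a1.1, a1.2, a2.1, a2.2]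
    have hτm : Measurable fun y : UnitAddTorus (Fin k) => (fun i : Fin n => σ y i) :=
      measurable_pi_lambda _ fun i => h1 i
    have hum : Measurable fun y => u fun i : Fin n => σ y i := (measurable_of_finite u).comp hτm
    have hvm : Measurable fun y => v fun i : Fin n => σ y i := (measurable_of_finite v).comp hτm
    have hsm : Measurable fun z => sgn (F z) := T3d_meas_sgn.comp hFm
    have hval : ∀ x : UnitAddTorus (Fin (k + l)), f (fun i : Fin (n + 1) => σ' x i) =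
        u (fun i : Fin n => σ (pfst x) i) +
          v (fun i : Fin n => σ (pfst x) i) * sgn (F (psnd x)) := by
      intro x
      have e1' : (fun i : Fin (n + 1) => σ' x i) =
          Fin.snoc (fun i : Fin n => σ (pfst x) i) (F (psnd x)) := by
        funext i
        refine Fin.lastCases ?_ (fun j => ?_) i
        · rw [Fin.snoc_last, Fin.val_last, hn x]
        · rw [Fin.snoc_castSucc, Fin.val_castSucc, hlt x j j.2]
      rw [e1', hu, hv]
      unfold sgn
      cases F (psnd x) <;> simp <;> ring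
    have hiu : Integrable fun x : UnitAddTorus (Fin (k + l)) =>
        u (fun i : Fin n => σ (pfst x) i) :=
      T3d_integrable (hum.comp (T3d_pf k l).measurable) 1 fun x => by
        rw [abs_of_nonneg (hu01 _).1]
        exact (hu01 _).2
    have hiv : Integrable fun x : UnitAddTorus (Fin (k + l)) =>
        v (fun i : Fin n => σ (pfst x) i) * sgn (F (psnd x)) :=
      T3d_integrable ((hvm.comp (T3d_pf k l).measurable).mul
        (hsm.comp (T3d_ps k l).measurable)) (1 / 2) fun x => by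
        rw [abs_mul, T3d_sgn_abs, mul_one]
        exact hv01 _
    simp only [hval]
    have hiuv : Integrable fun x : UnitAddTorus (Fin (k + l)) =>
        u (fun i : Fin n => σ (pfst x) i) +
          v (fun i : Fin n => σ (pfst x) i) * sgn (F (psnd x)) := hiu.add hiv
    rw [T3d_sub_const hiuv, integral_add hiu hiv, T3d_int_f (l := l) hum,
      T3d_int_fs hvm hsm, T3d_sum_snoc]
    have hiu' : Integrable fun y : UnitAddTorus (Fin k) => u (fun i : Fin n => σ y i) :=
      T3d_integrable hum 1 fun y => by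
        rw [abs_of_nonneg (hu01 _).1]
        exact (hu01 _).2
    have s1 := h6 u hu01
    rw [T3d_sub_const hiu'] at s1
    have s2 : |∫ y, v fun i : Fin n => σ y i| ≤ 1 / 2 := by
      have hpr := T3d_prob k
      have := norm_integral_le_of_norm_le_const (μ := (volume : Measure (UnitAddTorus (Fin k))))
        (f := fun y => v fun i : Fin n => σ y i) (C := 1 / 2)
        (Eventually.of_forall fun y => hv01 _)
      simpa using this
    have s3 : |(∫ y, v fun i : Fin n => σ y i) * ∫ z, sgn (F z)| ≤ 1 / 2 * (ε / 16) := by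
      rw [abs_mul]
      exact mul_le_mul s2 hF1 (abs_nonneg _) (by norm_num)
    rw [hu] at s1 ⊢
    rw [abs_le] at s1 s3 ⊢
    constructor <;> linarith [s1.1, s1.2, s3.1, s3.2]

theorem exists_tree (n : ℕ) (C : ℕ → (ℕ → Bool) → ℝ) (lab : ℕ → ℕ)
    (hC : ∀ q σ σ', (∀ i < q, σ i = σ' i) → C q σ = C q σ') (hC1 : ∀ q σ, |C q σ| ≤ 1)
    {ε : ℝ} (hε : 0 < ε) : ∃ k σ Sp c a, Real1 n C lab ε k σ Sp c a := by
  have key : ∀ n : ℕ, ∀ ε : ℝ, 0 < ε → ∃ k σ Sp c a, Real1 n C lab ε k σ Sp c a := by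
    intro n
    induction n with
    | zero =>
      intro ε hε
      refine ⟨0, fun _ _ => false, ∅, fun _ => 0, fun _ => 0, fun q => measurable_const,
        fun x q _ => rfl, by simp, by simp, fun θ => ?_, fun f hf => ?_⟩
      · simp only [PolS, Finset.sum_empty, Finset.range_zero, sub_zero, norm_zero]
        rw [zero_pow two_ne_zero, integral_zero]
        exact hε.le
      · have h1 : ∀ τ : Fin 0 → Bool, f τ = f (fun _ => false) := fun τ =>
          congrArg f (Subsingleton.elim _ _)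
        have h2 : ∑ τ : Fin 0 → Bool, f τ = f (fun _ => false) := by
          rw [Fintype.sum_unique]
          exact h1 _
        rw [h2]
        simp only [pow_zero, div_one, sub_self, integral_zero, abs_zero]
        exact hε.le
    | succ n ih => exact real1_step n C lab hC hC1 ih
  exact key n ε hε

end Vale.Agent.P130B
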