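import Vale.Agent.Lib.P130B.F.Defs

/-!
# P130B part I, module T4a

orthonormality of mFourier; m and -m2 are different for LNO m, m2.
-/

namespace Vale.Agent.P130B

open MeasureTheory Filter Topology Vale.Agent.P110F
open scoped ComplexConjugate

/-- the product Haar measure -/
private noncomputable abbrev T4amu (k : ℕ) : Measure (UnitAddTorus (Fin k)) :=
  Measure.pi fun _ => (AddCircle.haarAddCircle : Measure UnitAddCircle)

private lemma T4a_vol (k : ℕ) : (volume : Measure (UnitAddTorus (Fin k))) = T4amu k := by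
  have h : (volume : Measure UnitAddCircle) = AddCircle.haarAddCircle := by
    rw [AddCircle.volume_eq_smul_haarAddCircle, ENNReal.ofReal_one, one_smul]
  rw [volume_pi, h]

private lemma T4a_int_fourier (n : ℤ) :
    ∫ x : UnitAddCircle, fourier n x ∂AddCircle.haarAddCircle = if n = 0 then 1 else 0 := by
  have h := congrFun (fourierCoeff_fourier (T := 1) n) 0
  unfold fourierCoeff at h
  simp only [neg_zero, fourier_zero, one_smul] at h
  rw [h]
  by_cases hn : n = 0
  · subst hn
    simp
  · rw [if_neg hn, Pi.single_eq_of_ne (Ne.symm hn)]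

private lemma T4a_orth (k : ℕ) (n m : Fin k → ℤ) :
    ∫ x, conj (UnitAddTorus.mFourier m x) * UnitAddTorus.mFourier n x ∂(T4amu k) =
      if n = m then 1 else 0 := by
  have h1 : ∀ x : UnitAddTorus (Fin k),
      conj (UnitAddTorus.mFourier m x) * UnitAddTorus.mFourier n x =
        ∏ i, fourier (n i - m i) (x i) := by
    intro x
    rw [← UnitAddTorus.mFourier_neg, ← UnitAddTorus.mFourier_add]
    unfold UnitAddTorus.mFourier
    simp only [ContinuousMap.coe_mk]
    refine Finset.prod_congr rfl fun i _ => ?_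
    congr 1
    rw [Pi.add_apply, Pi.neg_apply]
    congr 1
    ring
  simp_rw [h1]
  have h2 := integral_fintype_prod_eq_prod (𝕜 := ℂ)
    (μ := fun _ : Fin k => (AddCircle.haarAddCircle : Measure UnitAddCircle))
    (fun i (y : UnitAddCircle) => fourier (n i - m i) y)
  rw [h2]
  simp_rw [T4a_int_fourier]
  by_cases h : n = m
  · subst h
    simp
  · rw [if_neg h]
    obtain ⟨i, hi⟩ := Function.ne_iff.1 h
    exact Finset.prod_eq_zero (Finset.mem_univ i) (if_neg (sub_ne_zero.2 hi))

private lemma T4a_pars (k : ℕ) (T : Finset (Fin k → ℤ)) (d : (Fin k → ℤ) → ℂ) :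
    ∫ x, ‖∑ m ∈ T, d m * UnitAddTorus.mFourier m x‖ ^ 2 ∂(T4amu k) = ∑ m ∈ T, ‖d m‖ ^ 2 := by
  have hcont : ∀ m n : Fin k → ℤ, Continuous fun x : UnitAddTorus (Fin k) =>
      (conj (d m) * d n) * (conj (UnitAddTorus.mFourier m x) * UnitAddTorus.mFourier n x) := by
    intro m n
    exact continuous_const.mul ((Complex.continuous_conj.comp (ContinuousMap.continuous _)).mul
      (ContinuousMap.continuous _))
  have hint : ∀ m n : Fin k → ℤ, Integrable (fun x : UnitAddTorus (Fin k) =>
      (conj (d m) * d n) * (conj (UnitAddTorus.mFourier m x) * UnitAddTorus.mFourier n x))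
      (T4amu k) := fun m n => (hcont m n).integrable_of_hasCompactSupport
        (HasCompactSupport.of_compactSpace _)
  have h1 : ∀ x : UnitAddTorus (Fin k),
      ((‖∑ m ∈ T, d m * UnitAddTorus.mFourier m x‖ ^ 2 : ℝ) : ℂ) =
        ∑ m ∈ T, ∑ n ∈ T, (conj (d m) * d n) *
          (conj (UnitAddTorus.mFourier m x) * UnitAddTorus.mFourier n x) := by
    intro x
    rw [Complex.ofReal_pow, ← Complex.conj_mul', map_sum, Finset.sum_mul_sum]
    refine Finset.sum_congr rfl fun m _ => Finset.sum_congr rfl fun n _ => ?_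
    rw [map_mul]
    ring
  apply Complex.ofReal_injective
  rw [← integral_complex_ofReal]
  simp_rw [h1]
  rw [integral_finsetSum _ fun m _ => integrable_finsetSum _ fun n _ => hint m n]
  simp_rw [integral_finsetSum _ fun n _ => hint _ n, integral_const_mul, T4a_orth]
  rw [Complex.ofReal_sum]
  refine Finset.sum_congr rfl fun m hm => ?_
  rw [Finset.sum_eq_single m]
  · rw [if_pos rfl, mul_one, Complex.conj_mul', Complex.ofReal_pow]
  · intro n _ hn
    rw [if_neg hn, mul_zero]
  · intro h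
    exact absurd hm h

theorem int_PolS {k : ℕ} (Sp : Finset (Fin k → ℤ)) (hS : ∀ m ∈ Sp, LNO m) (c : (Fin k → ℤ) → ℂ)
    (a : (Fin k → ℤ) → ℕ) (θ : ℝ) :
    ∫ x, ‖PolS Sp c a θ x‖ ^ 2 = 2 * ∑ m ∈ Sp, ‖c m‖ ^ 2 := by
  classical
  have hnot : ∀ m ∈ Sp, -m ∉ Sp := by
    intro m hm hm'
    obtain ⟨i, hi, hi2⟩ := hS m hm
    obtain ⟨j, hj, hj2⟩ := hS (-m) hm'
    simp only [Pi.neg_apply] at hj hj2
    rcases lt_trichotomy i j with h | h | h
    · have h1 := hi2 j h
      omega
    · subst h
      omega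
    · have h1 := hj2 i h
      omega
  have hdisj : Disjoint Sp (Sp.image fun m => -m) := by
    rw [Finset.disjoint_left]
    intro m hm hm2
    obtain ⟨m', hm', he⟩ := Finset.mem_image.1 hm2
    refine hnot m' hm' ?_
    rw [he]
    exact hm
  have hinj : Set.InjOn (fun m : Fin k → ℤ => -m) (Sp : Set (Fin k → ℤ)) :=
    fun a _ b _ h => neg_injective h
  set d : (Fin k → ℤ) → ℂ := fun m => if m ∈ Sp then e1 ((a m : ℝ) * θ) * c m else
    e1 ((a (-m) : ℝ) * θ) * conj (c (-m)) with hd
  have hd1 : ∀ m ∈ Sp, d m = e1 ((a m : ℝ) * θ) * c m := fun m hm => if_pos hm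
  have hd2 : ∀ m ∈ Sp, d (-m) = e1 ((a m : ℝ) * θ) * conj (c m) := by
    intro m hm
    rw [hd]
    simp only
    rw [if_neg (hnot m hm), neg_neg]
  have hsum : ∀ x, PolS Sp c a θ x =
      ∑ m ∈ Sp ∪ Sp.image (fun m => -m), d m * UnitAddTorus.mFourier m x := by
    intro x
    rw [Finset.sum_union hdisj, Finset.sum_image hinj, ← Finset.sum_add_distrib]
    unfold PolS
    refine Finset.sum_congr rfl fun m hm => ?_
    rw [hd1 m hm, hd2 m hm]
    ring
  simp_rw [hsum, T4a_vol]
  rw [T4a_pars, Finset.sum_union hdisj, Finset.sum_image hinj, ← Finset.sum_add_distrib,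
    Finset.mul_sum]
  refine Finset.sum_congr rfl fun m hm => ?_
  rw [hd1 m hm, hd2 m hm, norm_mul, norm_mul, norm_e1, RCLike.norm_conj]
  ring

end Vale.Agent.P130B
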