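import Vale.Agent.Lib.P130B.F.T1b
import Vale.Agent.Lib.P130B.F.T2
import Vale.Agent.Lib.P130B.F.T3d
import Vale.Agent.Lib.P130B.F.T4a

/-!
# P130B part I, module T4

R with 2^-R small, then K from none_rare, then exists_tree with n = (K+1)R, C = CC R, lab q = q / R (CC_congr, CC_nonneg), eps tiny; A x = AA K R (sigma x); (|sin| X)^2 <= 2 (..)^2 + 2 (..)^2, [NoWin]^2 = [NoWin], int [NoWin] <= none_rare + eps. At theta = 1/2: norm of PolS in L2 is within sqrt(eps) of 1 (T4a): scale c by 1/max(1,norm) to get 2 sum <= 1; drop m with c m = 0. AA only depends on sigma below (K+1)R so Measurable.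
-/

namespace Vale.Agent.P130B

open MeasureTheory Filter Topology Vale.Agent.P110F
open scoped ComplexConjugate

private theorem T4_prob (k : ℕ) : IsProbabilityMeasure (volume : Measure (UnitAddTorus (Fin k))) := by
  have hp : IsProbabilityMeasure (volume : Measure UnitAddCircle) := ⟨UnitAddCircle.measure_univ⟩
  change IsProbabilityMeasure (Measure.pi fun _ : Fin k => (volume : Measure UnitAddCircle))
  infer_instance

private theorem T4_cont {k : ℕ} (Sp : Finset (Fin k → ℤ)) (c : (Fin k → ℤ) → ℂ)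
    (a : (Fin k → ℤ) → ℕ) (θ : ℝ) : Continuous fun x => PolS Sp c a θ x := by
  unfold PolS
  refine continuous_finsetSum _ fun m _ => ?_
  exact continuous_const.mul ((continuous_const.mul (UnitAddTorus.mFourier m).continuous).add
    (continuous_const.mul (UnitAddTorus.mFourier (-m)).continuous))

private theorem T4_smul {k : ℕ} (Sp : Finset (Fin k → ℤ)) (c : (Fin k → ℤ) → ℂ)
    (a : (Fin k → ℤ) → ℕ) (θ : ℝ) (x : UnitAddTorus (Fin k)) (r : ℝ) :
    PolS Sp (fun m => (r : ℂ) * c m) a θ x = (r : ℂ) * PolS Sp c a θ x := by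
  unfold PolS
  rw [Finset.mul_sum]
  refine Finset.sum_congr rfl fun m _ => ?_
  rw [map_mul, Complex.conj_ofReal]
  ring

private theorem T4_int {k n : ℕ} (τ : UnitAddTorus (Fin k) → (Fin n → Bool)) (hτ : Measurable τ)
    (G : (Fin n → Bool) → ℂ) (P : UnitAddTorus (Fin k) → ℂ) (hP : Continuous P) :
    Integrable (fun x => ‖G (τ x) - P x‖ ^ 2) := by
  have := T4_prob k
  obtain ⟨C, hC⟩ := isCompact_univ.exists_bound_of_continuousOn
    (hP.continuousOn (s := (Set.univ : Set (UnitAddTorus (Fin k)))))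
  have hm : Measurable fun x => ‖G (τ x) - P x‖ ^ 2 :=
    ((((measurable_of_finite G).comp hτ).sub hP.measurable).norm).pow_const 2
  refine Integrable.of_bound hm.aestronglyMeasurable ((∑ t, ‖G t‖ + C) ^ 2)
    (Filter.Eventually.of_forall fun x => ?_)
  rw [Real.norm_of_nonneg (by positivity)]
  have h1 : ‖G (τ x)‖ ≤ ∑ t, ‖G t‖ :=
    Finset.single_le_sum (f := fun t => ‖G t‖) (fun t _ => norm_nonneg _) (Finset.mem_univ _)
  have h2 : ‖P x‖ ≤ C := hC x (Set.mem_univ _)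
  have h3 : ‖G (τ x) - P x‖ ≤ ∑ t, ‖G t‖ + C := (norm_sub_le _ _).trans (add_le_add h1 h2)
  exact pow_le_pow_left₀ (norm_nonneg _) h3 2

private theorem T4_scale {k n K : ℕ} (τ : UnitAddTorus (Fin k) → (Fin n → Bool))
    (hτ : Measurable τ) (B : (Fin n → Bool) → ℕ) (_hB : ∀ t, B t ≤ K)
    (Sp : Finset (Fin k → ℤ)) (hS : ∀ m ∈ Sp, LNO m) (c : (Fin k → ℤ) → ℂ)
    (a : (Fin k → ℤ) → ℕ) (_ha : ∀ m ∈ Sp, a m ≤ K) {t : ℝ} (ht : 0 < t) (ht1 : t ≤ 1 / 4)
    (h : ∀ θ, Real.sin (Real.pi * θ) ^ 2 *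
        ∫ x, ‖e1 ((B (τ x) : ℝ) * θ) - PolS Sp c a θ x‖ ^ 2 ≤ t ^ 2) :
    ∃ (c' : (Fin k → ℤ) → ℂ), 2 * ∑ m ∈ Sp, ‖c' m‖ ^ 2 ≤ 1 ∧
      1 - 3 * t ≤ 2 * ∑ m ∈ Sp, ‖c' m‖ ^ 2 ∧
      ∀ θ, Real.sin (Real.pi * θ) ^ 2 *
        ∫ x, ‖e1 ((B (τ x) : ℝ) * θ) - PolS Sp c' a θ x‖ ^ 2 ≤ 4 * t ^ 2 := by
  have := T4_prob k
  set s2 : ℝ := 2 * ∑ m ∈ Sp, ‖c m‖ ^ 2 with hs2
  have hI : ∀ θ, Integrable fun x => ‖e1 ((B (τ x) : ℝ) * θ) - PolS Sp c a θ x‖ ^ 2 := fun θ =>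
    T4_int τ hτ (fun t => e1 ((B t : ℝ) * θ)) _ (T4_cont Sp c a θ)
  have hP : ∀ θ, Integrable fun x => ‖PolS Sp c a θ x‖ ^ 2 := fun θ => by
    have := T4_int τ hτ (fun _ => 0) _ (T4_cont Sp c a θ)
    simpa using this
  have hhalf : ∫ x, ‖e1 ((B (τ x) : ℝ) * (1 / 2)) - PolS Sp c a (1 / 2) x‖ ^ 2 ≤ t ^ 2 := by
    have h1 := h (1 / 2)
    rw [show Real.pi * (1 / 2) = Real.pi / 2 by ring, Real.sin_pi_div_two, one_pow, one_mul] at h1
    exact h1
  have hs2P : ∫ x, ‖PolS Sp c a (1 / 2) x‖ ^ 2 = s2 := int_PolS Sp hS c a (1 / 2)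
  have hup : s2 ≤ (1 + t) ^ 2 := by
    have h1 : ∫ x, ‖PolS Sp c a (1 / 2) x‖ ^ 2 ≤
        ∫ x, ((1 + t) + (1 + 1 / t) * ‖e1 ((B (τ x) : ℝ) * (1 / 2)) - PolS Sp c a (1 / 2) x‖ ^ 2) := by
      refine integral_mono (hP _) ((integrable_const _).add ((hI _).const_mul _)) fun x => ?_
      have h2 : ‖PolS Sp c a (1 / 2) x‖ ≤
          1 + ‖e1 ((B (τ x) : ℝ) * (1 / 2)) - PolS Sp c a (1 / 2) x‖ := by
        have h3 := norm_sub_norm_le (PolS Sp c a (1 / 2) x) (e1 ((B (τ x) : ℝ) * (1 / 2)))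
        rw [norm_e1, norm_sub_rev] at h3
        linarith
      show ‖PolS Sp c a (1 / 2) x‖ ^ 2 ≤ _
      set u := ‖e1 ((B (τ x) : ℝ) * (1 / 2)) - PolS Sp c a (1 / 2) x‖ with hu
      have hu0 : 0 ≤ u := norm_nonneg _
      have h4 : ‖PolS Sp c a (1 / 2) x‖ ^ 2 ≤ (1 + u) ^ 2 :=
        pow_le_pow_left₀ (norm_nonneg _) h2 2
      have h5 : 2 * u ≤ t + 1 / t * u ^ 2 := by
        have h6 : 0 ≤ (t - u) ^ 2 / t := by positivity
        have h7 : (t - u) ^ 2 / t = t - 2 * u + 1 / t * u ^ 2 := by field_simp; ring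
        linarith
      nlinarith
    rw [hs2P, integral_add (integrable_const _) ((hI _).const_mul _), integral_const_mul,
      integral_const] at h1
    simp only [probReal_univ, one_smul] at h1
    have h2 : (1 + 1 / t) * ∫ x, ‖e1 ((B (τ x) : ℝ) * (1 / 2)) - PolS Sp c a (1 / 2) x‖ ^ 2 ≤
        (1 + 1 / t) * t ^ 2 := mul_le_mul_of_nonneg_left hhalf (by positivity)
    have h3 : (1 + 1 / t) * t ^ 2 = t ^ 2 + t := by field_simp
    nlinarith
  have hlo : 1 - 3 * t ≤ s2 := by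
    have h1 : ∫ _x : UnitAddTorus (Fin k), (1 : ℝ) ≤
        ∫ x, ((1 + t) * ‖PolS Sp c a (1 / 2) x‖ ^ 2 +
          (1 + 1 / t) * ‖e1 ((B (τ x) : ℝ) * (1 / 2)) - PolS Sp c a (1 / 2) x‖ ^ 2) := by
      refine integral_mono (integrable_const _) (((hP _).const_mul _).add ((hI _).const_mul _))
        fun x => ?_
      have h2 : 1 ≤ ‖PolS Sp c a (1 / 2) x‖ +
          ‖e1 ((B (τ x) : ℝ) * (1 / 2)) - PolS Sp c a (1 / 2) x‖ := by
        have h3 := norm_sub_norm_le (e1 ((B (τ x) : ℝ) * (1 / 2))) (PolS Sp c a (1 / 2) x)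
        rw [norm_e1] at h3
        linarith
      show (1 : ℝ) ≤ _
      set u := ‖e1 ((B (τ x) : ℝ) * (1 / 2)) - PolS Sp c a (1 / 2) x‖ with hu
      set v := ‖PolS Sp c a (1 / 2) x‖ with hv
      have hu0 : 0 ≤ u := norm_nonneg _
      have hv0 : 0 ≤ v := norm_nonneg _
      have h4 : (1 : ℝ) ≤ (v + u) ^ 2 := by nlinarith
      have h5 : 2 * v * u ≤ t * v ^ 2 + 1 / t * u ^ 2 := by
        have h6 : 0 ≤ (t * v - u) ^ 2 / t := by positivity
        have h7 : (t * v - u) ^ 2 / t = t * v ^ 2 - 2 * v * u + 1 / t * u ^ 2 := by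
          field_simp; ring
        linarith
      nlinarith
    rw [integral_add ((hP _).const_mul _) ((hI _).const_mul _), integral_const_mul,
      integral_const_mul, integral_const, hs2P] at h1
    simp only [probReal_univ, one_smul] at h1
    have h2 : (1 + 1 / t) * ∫ x, ‖e1 ((B (τ x) : ℝ) * (1 / 2)) - PolS Sp c a (1 / 2) x‖ ^ 2 ≤
        (1 + 1 / t) * t ^ 2 := mul_le_mul_of_nonneg_left hhalf (by positivity)
    have h3 : (1 + 1 / t) * t ^ 2 = t ^ 2 + t := by field_simp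
    have h4 : 1 ≤ (1 + t) * s2 + (t ^ 2 + t) := by linarith
    have h5 : (1 - 3 * t) * (1 + t) ≤ s2 * (1 + t) := by nlinarith
    exact le_of_mul_le_mul_right h5 (by linarith)
  rcases le_or_gt s2 1 with hs | hs
  · refine ⟨c, hs, hlo, fun θ => (h θ).trans ?_⟩
    nlinarith
  · set r := Real.sqrt s2 with hr
    have hr0 : 0 < r := Real.sqrt_pos.2 (by linarith)
    have hrr : r ^ 2 = s2 := Real.sq_sqrt (by linarith)
    have hr1 : 1 < r := by
      by_contra hcon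
      have : r ^ 2 ≤ 1 := by
        have := not_lt.1 hcon
        nlinarith
      linarith
    have hrt : r ≤ 1 + t := by
      by_contra hcon
      have := not_le.1 hcon
      nlinarith
    refine ⟨fun m => ((1 / r : ℝ) : ℂ) * c m, ?_, ?_, ?_⟩
    all_goals
      have hsum : 2 * ∑ m ∈ Sp, ‖((1 / r : ℝ) : ℂ) * c m‖ ^ 2 = 1 := by
        have h1 : ∀ m, ‖((1 / r : ℝ) : ℂ) * c m‖ ^ 2 = (1 / r) ^ 2 * ‖c m‖ ^ 2 := by
          intro m
          rw [norm_mul, Complex.norm_real, Real.norm_of_nonneg (by positivity), mul_pow]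
        simp_rw [h1]
        rw [← Finset.mul_sum]
        have h2 : 2 * ((1 / r) ^ 2 * ∑ m ∈ Sp, ‖c m‖ ^ 2) = (1 / r) ^ 2 * s2 := by
          rw [hs2]; ring
        rw [h2, ← hrr]
        field_simp
    · exact hsum.le
    · rw [hsum]; linarith
    · intro θ
      have hI2 : Integrable fun x =>
          ‖PolS Sp c a θ x - PolS Sp (fun m => ((1 / r : ℝ) : ℂ) * c m) a θ x‖ ^ 2 := by
        have h1 := (hP θ).const_mul ((1 - 1 / r) ^ 2)
        refine h1.congr (Filter.Eventually.of_forall fun x => ?_)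
        show (1 - 1 / r) ^ 2 * ‖PolS Sp c a θ x‖ ^ 2 =
          ‖PolS Sp c a θ x - PolS Sp (fun m => ((1 / r : ℝ) : ℂ) * c m) a θ x‖ ^ 2
        rw [T4_smul]
        have h2 : PolS Sp c a θ x - ((1 / r : ℝ) : ℂ) * PolS Sp c a θ x =
            ((1 - 1 / r : ℝ) : ℂ) * PolS Sp c a θ x := by push_cast; ring
        rw [h2, norm_mul, Complex.norm_real, mul_pow, Real.norm_eq_abs, sq_abs]
      have hval : ∫ x, ‖PolS Sp c a θ x - PolS Sp (fun m => ((1 / r : ℝ) : ℂ) * c m) a θ x‖ ^ 2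
          ≤ t ^ 2 := by
        have h1 : ∀ x, ‖PolS Sp c a θ x - PolS Sp (fun m => ((1 / r : ℝ) : ℂ) * c m) a θ x‖ ^ 2 =
            (1 - 1 / r) ^ 2 * ‖PolS Sp c a θ x‖ ^ 2 := by
          intro x
          rw [T4_smul]
          have h2 : PolS Sp c a θ x - ((1 / r : ℝ) : ℂ) * PolS Sp c a θ x =
              ((1 - 1 / r : ℝ) : ℂ) * PolS Sp c a θ x := by push_cast; ring
          rw [h2, norm_mul, Complex.norm_real, mul_pow, Real.norm_eq_abs, sq_abs]
        simp_rw [h1]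
        rw [integral_const_mul, int_PolS Sp hS c a θ, ← hs2, ← hrr]
        have h3 : (1 - 1 / r) ^ 2 * r ^ 2 = (r - 1) ^ 2 := by field_simp
        rw [h3]
        exact pow_le_pow_left₀ (by linarith) (by linarith) 2
      have hI3 : Integrable fun x => ‖e1 ((B (τ x) : ℝ) * θ) -
          PolS Sp (fun m => ((1 / r : ℝ) : ℂ) * c m) a θ x‖ ^ 2 :=
        T4_int τ hτ (fun t => e1 ((B t : ℝ) * θ)) _ (T4_cont Sp _ a θ)
      have h1 : ∫ x, ‖e1 ((B (τ x) : ℝ) * θ) -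
          PolS Sp (fun m => ((1 / r : ℝ) : ℂ) * c m) a θ x‖ ^ 2 ≤
          ∫ x, (2 * ‖e1 ((B (τ x) : ℝ) * θ) - PolS Sp c a θ x‖ ^ 2 +
            2 * ‖PolS Sp c a θ x - PolS Sp (fun m => ((1 / r : ℝ) : ℂ) * c m) a θ x‖ ^ 2) := by
        refine integral_mono hI3 (((hI θ).const_mul 2).add (hI2.const_mul 2)) fun x => ?_
        show ‖_‖ ^ 2 ≤ 2 * ‖_‖ ^ 2 + 2 * ‖_‖ ^ 2
        have h2 := norm_sub_le_norm_sub_add_norm_sub (e1 ((B (τ x) : ℝ) * θ)) (PolS Sp c a θ x)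
          (PolS Sp (fun m => ((1 / r : ℝ) : ℂ) * c m) a θ x)
        have h3 := pow_le_pow_left₀ (norm_nonneg _) h2 2
        refine h3.trans ?_
        nlinarith [sq_nonneg (‖e1 ((B (τ x) : ℝ) * θ) - PolS Sp c a θ x‖ -
          ‖PolS Sp c a θ x - PolS Sp (fun m => ((1 / r : ℝ) : ℂ) * c m) a θ x‖)]
      rw [integral_add ((hI θ).const_mul 2) (hI2.const_mul 2), integral_const_mul,
        integral_const_mul] at h1
      have hsin : Real.sin (Real.pi * θ) ^ 2 ≤ 1 := Real.sin_sq_le_one _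
      have hsin0 : 0 ≤ Real.sin (Real.pi * θ) ^ 2 := sq_nonneg _
      have h4 := mul_le_mul_of_nonneg_left h1 hsin0
      have h5 := h θ
      have h6 : 0 ≤ ∫ x, ‖PolS Sp c a θ x - PolS Sp (fun m => ((1 / r : ℝ) : ℂ) * c m) a θ x‖ ^ 2 :=
        integral_nonneg fun x => by positivity
      have h7 : Real.sin (Real.pi * θ) ^ 2 *
          ∫ x, ‖PolS Sp c a θ x - PolS Sp (fun m => ((1 / r : ℝ) : ℂ) * c m) a θ x‖ ^ 2 ≤ t ^ 2 :=
        (mul_le_of_le_one_left h6 hsin).trans hval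
      refine h4.trans ?_
      rw [mul_add]
      nlinarith

theorem exists_Phi {ε : ℝ} (hε : 0 < ε) :
    ∃ (K k : ℕ) (A : UnitAddTorus (Fin k) → ℕ) (Sp : Finset (Fin k → ℤ)) (c : (Fin k → ℤ) → ℂ)
      (a : (Fin k → ℤ) → ℕ), Measurable A ∧ (∀ x, A x ≤ K) ∧ (∀ m ∈ Sp, LNO m) ∧
      (∀ m ∈ Sp, a m ≤ K) ∧ (∀ m ∈ Sp, c m ≠ 0) ∧ Sp.Nonempty ∧
      2 * ∑ m ∈ Sp, ‖c m‖ ^ 2 ≤ 1 ∧ 1 - ε ≤ 2 * ∑ m ∈ Sp, ‖c m‖ ^ 2 ∧
      ∀ θ, Real.sin (Real.pi * θ) ^ 2 *
        ∫ x, ‖e1 ((A x : ℝ) * θ) - PolS Sp c a θ x‖ ^ 2 ≤ ε := by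
  classical
  set t : ℝ := min ε 1 / 4 with ht
  have ht0 : 0 < t := by positivity
  have ht1 : t ≤ 1 / 4 := by
    rw [ht]
    have := min_le_right ε 1
    linarith
  have htε : 4 * t ≤ ε := by
    rw [ht]
    have := min_le_left ε 1
    linarith
  set δ : ℝ := t ^ 2 / 14 with hδ
  have hδ0 : 0 < δ := by positivity
  have hδ1 : δ ≤ 1 := by
    rw [hδ]
    nlinarith
  obtain ⟨R₀, hR₀⟩ := exists_pow_lt_of_lt_one hδ0 (show (1 / 2 : ℝ) < 1 by norm_num)
  set R := R₀ + 1 with hR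
  have hRpos : 0 < R := Nat.succ_pos _
  have hRδ : (1 / 2 : ℝ) ^ R ≤ δ := by
    rw [hR, pow_succ]
    have : 0 < (1 / 2 : ℝ) ^ R₀ := by positivity
    nlinarith
  obtain ⟨K, hK⟩ := none_rare hRpos hδ0
  set n := (K + 1) * R with hn
  obtain ⟨k, σ, Sp, c, a, hσ, hσ0, hLNO, hlab, hL2, hlaw⟩ :=
    exists_tree n (fun q σ => CC R q σ) (fun q => q / R)
      (fun q σ σ' h => CC_congr hRpos h)
      (fun q σ => by
        rw [abs_of_nonneg (CC_nonneg R q σ).1]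
        exact (CC_nonneg R q σ).2) hδ0
  have := T4_prob k
  set τ : UnitAddTorus (Fin k) → (Fin n → Bool) := fun x i => σ x i with hτdef
  have hτ : Measurable τ := measurable_pi_iff.2 fun i => hσ i
  have hext : ∀ x, ext (τ x) = σ x := by
    intro x
    funext i
    unfold ext
    split_ifs with h
    · rfl
    · exact (hσ0 x i (not_lt.1 h)).symm
  have haK : ∀ m ∈ Sp, a m ≤ K := by
    intro m hm
    obtain ⟨q, hq, h⟩ := hlab m hm
    rw [h]
    exact Nat.lt_succ_iff.1 (Nat.div_lt_of_lt_mul (by rw [mul_comm]; exact hq))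
  have hmain : ∀ θ, Real.sin (Real.pi * θ) ^ 2 *
      ∫ x, ‖e1 ((AA K R (ext (τ x)) : ℝ) * θ) - PolS Sp c a θ x‖ ^ 2 ≤ t ^ 2 := by
    intro θ
    set S : (Fin n → Bool) → ℂ := fun s => ∑ q ∈ Finset.range n,
      ((CC R q (ext s) * sgn (ext s q) : ℝ) : ℂ) * e1 (((q / R : ℕ) : ℝ) * θ) with hS
    set I : (Fin n → Bool) → ℝ := fun s => if NoWin K R (ext s) then 1 else 0 with hI
    have hI1 : Integrable fun x => ‖e1 ((AA K R (ext (τ x)) : ℝ) * θ) - PolS Sp c a θ x‖ ^ 2 :=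
      T4_int τ hτ (fun s => e1 ((AA K R (ext s) : ℝ) * θ)) _ (T4_cont Sp c a θ)
    have hI2 : Integrable fun x => ‖S (τ x) - PolS Sp c a θ x‖ ^ 2 :=
      T4_int τ hτ S _ (T4_cont Sp c a θ)
    have hII : Integrable fun x => I (τ x) := by
      have h1 := T4_int τ hτ (fun s => ((I s : ℝ) : ℂ)) (fun _ => 0) continuous_const
      refine h1.congr (Filter.Eventually.of_forall fun x => ?_)
      show ‖((I (τ x) : ℝ) : ℂ) - 0‖ ^ 2 = I (τ x)
      rw [sub_zero, Complex.norm_real, hI]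
      dsimp only
      split_ifs <;> simp
    have hint2 : ∫ x, ‖S (τ x) - PolS Sp c a θ x‖ ^ 2 ≤ δ := by
      have h1 := hL2 θ
      refine le_trans (le_of_eq ?_) h1
      refine integral_congr_ae (Filter.Eventually.of_forall fun x => ?_)
      show ‖S (τ x) - PolS Sp c a θ x‖ ^ 2 = _
      rw [hS]
      dsimp only
      rw [hext x]
    have hintI : ∫ x, I (τ x) ≤ 2 * δ := by
      have h1 := hlaw I (fun s => by
        rw [hI]; dsimp only; split_ifs <;> norm_num)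
      have h2 : (∑ s, I s) / 2 ^ n ≤ δ := by
        rw [div_le_iff₀ (by positivity)]
        refine le_trans (le_of_eq ?_) hK
        rw [hI]
        dsimp only
        rw [Finset.sum_ite, Finset.sum_const_zero, add_zero, Finset.sum_const, nsmul_eq_mul,
          mul_one]
      have h4 : ∫ x, (I (τ x) - (∑ s, I s) / 2 ^ n) = (∫ x, I (τ x)) - (∑ s, I s) / 2 ^ n := by
        rw [integral_sub hII (integrable_const _), integral_const]
        simp
      have h5 : |(∫ x, I (τ x)) - (∑ s, I s) / 2 ^ n| ≤ δ := by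
        rw [← h4]
        exact h1
      have h3 := (abs_le.1 h5).2
      linarith
    have hpt : ∀ x, Real.sin (Real.pi * θ) ^ 2 *
        ‖e1 ((AA K R (ext (τ x)) : ℝ) * θ) - PolS Sp c a θ x‖ ^ 2 ≤
        4 * δ + 4 * I (τ x) + 2 * ‖S (τ x) - PolS Sp c a θ x‖ ^ 2 := by
      intro x
      have h1 := sign_bound K hRpos (ext (τ x)) θ
      have h2 : (|Real.sin (Real.pi * θ)| * ‖e1 ((AA K R (ext (τ x)) : ℝ) * θ) - S (τ x)‖) ^ 2 ≤
          ((1 / 2 : ℝ) ^ R + I (τ x)) ^ 2 :=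
        pow_le_pow_left₀ (by positivity) h1 2
      have h3 : ((1 / 2 : ℝ) ^ R + I (τ x)) ^ 2 ≤ 2 * δ + 2 * I (τ x) := by
        have hb0 : 0 < (1 / 2 : ℝ) ^ R := by positivity
        have hIx : I (τ x) = 0 ∨ I (τ x) = 1 := by
          rw [hI]; dsimp only; split_ifs
          · exact Or.inr rfl
          · exact Or.inl rfl
        rcases hIx with h | h <;> rw [h] <;> nlinarith
      have h4 := norm_sub_le_norm_sub_add_norm_sub (e1 ((AA K R (ext (τ x)) : ℝ) * θ)) (S (τ x))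
        (PolS Sp c a θ x)
      have h5 := pow_le_pow_left₀ (norm_nonneg _) h4 2
      have hsin : Real.sin (Real.pi * θ) ^ 2 ≤ 1 := Real.sin_sq_le_one _
      have hsin0 : 0 ≤ Real.sin (Real.pi * θ) ^ 2 := sq_nonneg _
      rw [mul_pow, sq_abs] at h2
      set p := ‖e1 ((AA K R (ext (τ x)) : ℝ) * θ) - S (τ x)‖ with hp
      set u := ‖S (τ x) - PolS Sp c a θ x‖ with hu
      have h6 : (p + u) ^ 2 ≤ 2 * p ^ 2 + 2 * u ^ 2 := by nlinarith [sq_nonneg (p - u)]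
      have h7 := mul_le_mul_of_nonneg_left (h5.trans h6) hsin0
      have h8 : Real.sin (Real.pi * θ) ^ 2 * u ^ 2 ≤ u ^ 2 :=
        mul_le_of_le_one_left (sq_nonneg _) hsin
      nlinarith
    rw [← integral_const_mul]
    have h1 : ∫ x, Real.sin (Real.pi * θ) ^ 2 *
        ‖e1 ((AA K R (ext (τ x)) : ℝ) * θ) - PolS Sp c a θ x‖ ^ 2 ≤
        ∫ x, (4 * δ + 4 * I (τ x) + 2 * ‖S (τ x) - PolS Sp c a θ x‖ ^ 2) :=
      integral_mono (hI1.const_mul _) (((integrable_const _).add (hII.const_mul 4)).add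
        (hI2.const_mul 2)) hpt
    refine h1.trans ?_
    have e1' : ∫ x, (4 * δ + 4 * I (τ x) + 2 * ‖S (τ x) - PolS Sp c a θ x‖ ^ 2) =
        (∫ x, (4 * δ + 4 * I (τ x))) + ∫ x, 2 * ‖S (τ x) - PolS Sp c a θ x‖ ^ 2 :=
      integral_add ((integrable_const (4 * δ)).add (hII.const_mul 4)) (hI2.const_mul 2)
    have e2' : ∫ x, (4 * δ + 4 * I (τ x)) = (∫ _x : UnitAddTorus (Fin k), 4 * δ) +
        ∫ x, 4 * I (τ x) := integral_add (integrable_const _) (hII.const_mul 4)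
    have e3' : ∫ x, 4 * I (τ x) = 4 * ∫ x, I (τ x) := integral_const_mul _ _
    have e4' : ∫ x, 2 * ‖S (τ x) - PolS Sp c a θ x‖ ^ 2 =
        2 * ∫ x, ‖S (τ x) - PolS Sp c a θ x‖ ^ 2 := integral_const_mul _ _
    have e5' : ∫ _x : UnitAddTorus (Fin k), 4 * δ = 4 * δ := by
      rw [integral_const]
      simp
    rw [e1', e2', e3', e4', e5']
    have h2 : 14 * δ = t ^ 2 := by rw [hδ]; ring
    linarith
  obtain ⟨c', h1, h2, h3⟩ := T4_scale τ hτ (fun s => AA K R (ext s)) (fun s => AA_le K R _)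
    Sp hLNO c a haK ht0 ht1 hmain
  have hsumf : ∑ m ∈ Sp.filter (fun m => c' m ≠ 0), ‖c' m‖ ^ 2 = ∑ m ∈ Sp, ‖c' m‖ ^ 2 := by
    refine Finset.sum_filter_of_ne fun m _ hm hc => hm ?_
    rw [hc]; simp
  have hPf : ∀ θ x, PolS (Sp.filter (fun m => c' m ≠ 0)) c' a θ x = PolS Sp c' a θ x := by
    intro θ x
    unfold PolS
    refine Finset.sum_filter_of_ne fun m _ hm hc => hm ?_
    rw [hc]; simp
  refine ⟨K, k, fun x => AA K R (ext (τ x)), Sp.filter (fun m => c' m ≠ 0), c', a,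
    (measurable_of_finite (fun s : Fin n → Bool => AA K R (ext s))).comp hτ,
    fun x => AA_le K R _, fun m hm => hLNO m (Finset.mem_of_mem_filter m hm),
    fun m hm => haK m (Finset.mem_of_mem_filter m hm), fun m hm => (Finset.mem_filter.1 hm).2,
    ?_, ?_, ?_, ?_⟩
  · by_contra hne
    rw [Finset.not_nonempty_iff_eq_empty] at hne
    rw [hne, Finset.sum_empty] at hsumf
    rw [← hsumf] at h2
    linarith
  · rw [hsumf]; exact h1
  · rw [hsumf]; linarith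
  · intro θ
    simp_rw [hPf]
    refine (h3 θ).trans ?_
    nlinarith

end Vale.Agent.P130B
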