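import Mathlib
import Vale.Agent.Lib.P110F.C6
import Vale.Agent.Lib.P130B.F.S1

/-!
# P130B part I, module U1: choice of the shift, uniformly with a weight
-/

namespace Vale.Agent.P130B

open MeasureTheory Filter Topology Vale.Agent.P110F
open scoped ComplexConjugate

private lemma u1_continuous_PolS {k : ℕ} (Sp : Finset (Fin k → ℤ)) (c : (Fin k → ℤ) → ℂ)
    (a : (Fin k → ℤ) → ℕ) :
    Continuous (fun z : UnitAddTorus (Fin k) × ℝ => PolS Sp c a z.2 z.1) := by
  unfold PolS
  refine continuous_finsetSum _ fun m _ => ?_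
  refine Continuous.mul (continuous_e1.comp (continuous_const.mul continuous_snd)) ?_
  exact (continuous_const.mul ((UnitAddTorus.mFourier m).continuous.comp continuous_fst)).add
    (continuous_const.mul ((UnitAddTorus.mFourier (-m)).continuous.comp continuous_fst))

private lemma u1_norm_mFourier {k : ℕ} (m : Fin k → ℤ) (x : UnitAddTorus (Fin k)) :
    ‖UnitAddTorus.mFourier m x‖ ≤ 1 := by
  have := (UnitAddTorus.mFourier m).norm_coe_le_norm x
  rwa [UnitAddTorus.mFourier_norm] at this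

private lemma u1_norm_PolS {k : ℕ} (Sp : Finset (Fin k → ℤ)) (c : (Fin k → ℤ) → ℂ)
    (a : (Fin k → ℤ) → ℕ) (θ : ℝ) (x : UnitAddTorus (Fin k)) :
    ‖PolS Sp c a θ x‖ ≤ ∑ m ∈ Sp, 2 * ‖c m‖ := by
  unfold PolS
  refine (norm_sum_le _ _).trans (Finset.sum_le_sum fun m _ => ?_)
  rw [norm_mul, norm_e1, one_mul]
  refine (norm_add_le _ _).trans ?_
  rw [norm_mul, norm_mul, Complex.norm_conj]
  have h1 := u1_norm_mFourier m x
  have h2 := u1_norm_mFourier (-m) x
  nlinarith [norm_nonneg (c m)]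

/-- choice of the shift -/
theorem shift_part_w {d k K : ℕ} {Q : ℝ → ℝ} (hQ : TrigW d Q) {A : UnitAddTorus (Fin k) → ℕ}
    (hA : Measurable A) (hAK : ∀ x, A x ≤ K) (Sp : Finset (Fin k → ℤ)) (c : (Fin k → ℤ) → ℂ)
    (a : (Fin k → ℤ) → ℕ) {ε : ℝ}
    (h : ∀ θ, Real.sin (Real.pi * θ) ^ 2 *
        ∫ x, ‖e1 ((A x : ℝ) * θ) - PolS Sp c a θ x‖ ^ 2 ≤ ε) {Y : Type} [Fintype Y]
    (p : Y → UnitAddTorus (Fin k)) :
    ∃ α : UnitAddTorus (Fin k), ∑ y, ∫ x in (0 : ℝ)..1, Q x * Real.sin (Real.pi * x) ^ 2 *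
      ‖e1 ((A (p y + α) : ℝ) * x) - PolS Sp c a x (p y + α)‖ ^ 2 ≤ Fintype.card Y * ε := by
  have hQc : Continuous Q := hQ.trig.continuous
  have hp : IsProbabilityMeasure (volume : Measure UnitAddCircle) := ⟨UnitAddCircle.measure_univ⟩
  have hp2 : IsProbabilityMeasure (volume : Measure (UnitAddTorus (Fin k))) := by
    change IsProbabilityMeasure (Measure.pi fun _ : Fin k => (volume : Measure UnitAddCircle))
    infer_instance
  set B : ℝ := 1 + ∑ m ∈ Sp, 2 * ‖c m‖ with hB
  have hB0 : 0 ≤ B := by positivity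
  set D : UnitAddTorus (Fin k) → ℝ → ℂ := fun y x => e1 ((A y : ℝ) * x) - PolS Sp c a x y with hD
  have hDB : ∀ y x, ‖D y x‖ ^ 2 ≤ B ^ 2 := by
    intro y x
    have h1 : ‖D y x‖ ≤ B := by
      refine (norm_sub_le _ _).trans ?_
      rw [norm_e1]
      exact add_le_add le_rfl (u1_norm_PolS Sp c a x y)
    gcongr
  have hDm : Measurable (fun z : UnitAddTorus (Fin k) × ℝ => D z.1 z.2) := by
    have h1 : Measurable (fun z : UnitAddTorus (Fin k) × ℝ => e1 ((A z.1 : ℝ) * z.2)) :=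
      continuous_e1.measurable.comp
        (((measurable_from_nat (f := fun n : ℕ => (n : ℝ))).comp (hA.comp measurable_fst)).mul
          measurable_snd)
    exact h1.sub (u1_continuous_PolS Sp c a).measurable
  set Φ : UnitAddTorus (Fin k) → ℝ → ℝ := fun y x =>
    Q x * Real.sin (Real.pi * x) ^ 2 * ‖D y x‖ ^ 2 with hΦ
  have hwc : Continuous (fun x => Q x * Real.sin (Real.pi * x) ^ 2) :=
    hQc.mul ((Real.continuous_sin.comp (continuous_const.mul continuous_id)).pow 2)
  have hΦm : Measurable (fun z : UnitAddTorus (Fin k) × ℝ => Φ z.1 z.2) :=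
    (hwc.measurable.comp measurable_snd).mul (hDm.norm.pow_const 2)
  have hΦ0 : ∀ y x, 0 ≤ Φ y x := fun y x => by
    have := hQ.nonneg x
    positivity
  have hsin : ∀ x : ℝ, Real.sin (Real.pi * x) ^ 2 ≤ 1 := fun x => Real.sin_sq_le_one _
  have hΦB : ∀ y x, Φ y x ≤ Q x * B ^ 2 := by
    intro y x
    have h1 := hQ.nonneg x
    have h2 := hsin x
    have h3 := hDB y x
    calc Q x * Real.sin (Real.pi * x) ^ 2 * ‖D y x‖ ^ 2
        ≤ Q x * 1 * B ^ 2 := by gcongr
      _ = Q x * B ^ 2 := by ring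
  set ν : Measure ℝ := volume.restrict (Set.Ioc 0 1) with hν
  have hνf : IsFiniteMeasure ν := by
    rw [hν]
    exact ⟨by rw [Measure.restrict_apply_univ, Real.volume_Ioc]; exact ENNReal.ofReal_lt_top⟩
  have hQi : Integrable Q ν := by
    have := hQc.intervalIntegrable (μ := volume) 0 1
    rwa [intervalIntegrable_iff_integrableOn_Ioc_of_le zero_le_one] at this
  have hQ1 : ∫ x, Q x ∂ν = 1 := by
    rw [hν, ← intervalIntegral.integral_of_le zero_le_one]
    exact hQ.one
  have hΦi : Integrable (fun z : UnitAddTorus (Fin k) × ℝ => Φ z.1 z.2)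
      ((volume : Measure (UnitAddTorus (Fin k))).prod ν) := by
    have h1 : Integrable (fun z : UnitAddTorus (Fin k) × ℝ => Q z.2 * B ^ 2)
        ((volume : Measure (UnitAddTorus (Fin k))).prod ν) :=
      (hQi.comp_snd (volume : Measure (UnitAddTorus (Fin k)))).mul_const _
    refine h1.mono' hΦm.aestronglyMeasurable (Eventually.of_forall fun z => ?_)
    rw [Real.norm_eq_abs, abs_of_nonneg (hΦ0 _ _)]
    exact hΦB _ _
  set G : UnitAddTorus (Fin k) → ℝ := fun y => ∫ x, Φ y x ∂ν with hG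
  have hGm : Measurable G := by
    have h1 : StronglyMeasurable (Function.uncurry Φ) := hΦm.stronglyMeasurable
    exact (h1.integral_prod_right (ν := ν)).measurable
  have hG0 : ∀ y, 0 ≤ G y := fun y => integral_nonneg (hΦ0 y)
  have hGB : ∀ y, G y ≤ B ^ 2 := by
    intro y
    calc G y ≤ ∫ x, Q x * B ^ 2 ∂ν :=
          integral_mono_of_nonneg (Eventually.of_forall (hΦ0 y)) (hQi.mul_const _)
            (Eventually.of_forall (hΦB y))
      _ = B ^ 2 := by rw [integral_mul_const, hQ1, one_mul]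
  obtain ⟨α, hα⟩ := exists_shift k G hGm hG0 hGB p
  refine ⟨α, ?_⟩
  have h1 : ∀ y, (∫ x in (0 : ℝ)..1, Q x * Real.sin (Real.pi * x) ^ 2 *
      ‖e1 ((A (p y + α) : ℝ) * x) - PolS Sp c a x (p y + α)‖ ^ 2) = G (p y + α) := by
    intro y
    rw [intervalIntegral.integral_of_le zero_le_one]
  rw [Finset.sum_congr rfl fun y _ => h1 y]
  refine hα.trans ?_
  have h2 : ∫ y, G y ≤ ε := by
    have h3 : ∫ y, G y = ∫ x, (∫ y, Φ y x) ∂ν := by
      simp only [hG]
      exact integral_integral_swap hΦi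
    rw [h3]
    have h4 : ∀ x, ∫ y, Φ y x ≤ Q x * ε := by
      intro x
      have h5 : ∫ y, Φ y x = Q x * (Real.sin (Real.pi * x) ^ 2 *
          ∫ y, ‖e1 ((A y : ℝ) * x) - PolS Sp c a x y‖ ^ 2) := by
        simp only [hΦ]
        rw [integral_const_mul, mul_assoc]
      rw [h5]
      exact mul_le_mul_of_nonneg_left (h x) (hQ.nonneg x)
    calc ∫ x, (∫ y, Φ y x) ∂ν ≤ ∫ x, Q x * ε ∂ν :=
          integral_mono_of_nonneg (Eventually.of_forall fun x => integral_nonneg fun y => hΦ0 y x)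
            (hQi.mul_const _) (Eventually.of_forall h4)
      _ = ε := by rw [integral_mul_const, hQ1, one_mul]
  exact mul_le_mul_of_nonneg_left h2 (Nat.cast_nonneg _)

end Vale.Agent.P130B
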