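import Vale.Agent.Lib.P130B.F.S1
import Vale.Agent.Lib.P130B.F.S2
import Vale.Agent.Lib.P130B.F.S2b
import Vale.Agent.Lib.P110F.FinalA

/-!
# P130B part I, module U2: positions and the difference

copy of P110F FinalA exists_poly: `e` from exists_reindex, position number `e (sl j, y)` has
`s = A (X j y)`, all other positions have `s = 0`.  `g x` is the sum over all positions `t` of
`b t x e1 (t h x)` with `b t x = e1 (s t x) - main` (main = 0 on junk), a trigonometric polynomial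
in `x` with frequencies in `0..K`; `int_orth` with the weight `Q sin^2` (degree `d+1`).
On junk positions `norm (b t x) = 1` and `int Q sin^2 ≤ int Q = 1`.
-/

namespace Vale.Agent.P130B

open MeasureTheory Filter Topology Vale.Agent.P110F
open scoped ComplexConjugate

/-- polynomial in `e1 x` of degree at most `K` -/
private def PK (K : ℕ) (f : ℝ → ℂ) : Prop :=
  ∃ β : ℕ → ℂ, ∀ x : ℝ, f x = ∑ l ∈ Finset.range (K + 1), β l * e1 (l * x)

private theorem PK_single {K l : ℕ} (hl : l ≤ K) (z : ℂ) :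
    PK K (fun x => e1 ((l : ℝ) * x) * z) := by
  refine ⟨fun i => if i = l then z else 0, fun x => ?_⟩
  simp only [ite_mul, zero_mul]
  rw [Finset.sum_ite_eq', if_pos (Finset.mem_range.2 (by omega)), mul_comm]

private theorem PK_zero {K : ℕ} : PK K (fun _ => 0) :=
  ⟨fun _ => 0, fun x => by simp⟩

private theorem PK_sub {K : ℕ} {f g : ℝ → ℂ} (hf : PK K f) (hg : PK K g) :
    PK K (fun x => f x - g x) := by
  obtain ⟨β, hβ⟩ := hf
  obtain ⟨γ, hγ⟩ := hg
  refine ⟨fun l => β l - γ l, fun x => ?_⟩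
  beta_reduce
  rw [hβ, hγ, ← Finset.sum_sub_distrib]
  exact Finset.sum_congr rfl fun l _ => (sub_mul _ _ _).symm

private theorem PK_sum {K : ℕ} {α : Type} (S : Finset α) (f : α → ℝ → ℂ)
    (hf : ∀ m ∈ S, PK K (f m)) : PK K (fun x => ∑ m ∈ S, f m x) := by
  have hf' : ∀ m ∈ S, ∃ β : ℕ → ℂ, ∀ x : ℝ,
      f m x = ∑ l ∈ Finset.range (K + 1), β l * e1 (l * x) := hf
  choose! β hβ using hf'
  refine ⟨fun l => ∑ m ∈ S, β m l, fun x => ?_⟩
  beta_reduce
  rw [Finset.sum_congr rfl fun m hm => hβ m hm x, Finset.sum_comm]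
  exact Finset.sum_congr rfl fun l _ => (Finset.sum_mul _ _ _).symm

private theorem PK_PolS {K k : ℕ} (Sp : Finset (Fin k → ℤ)) (c : (Fin k → ℤ) → ℂ)
    (a : (Fin k → ℤ) → ℕ) (haK : ∀ m ∈ Sp, a m ≤ K) (y : UnitAddTorus (Fin k)) :
    PK K (fun x => PolS Sp c a x y) := by
  unfold PolS
  exact PK_sum Sp _ fun m hm => PK_single (haK m hm) _

private theorem PK_cont {K : ℕ} {f : ℝ → ℂ} (hf : PK K f) : Continuous f := by
  obtain ⟨β, hβ⟩ := hf
  have h2 : f = fun x => ∑ l ∈ Finset.range (K + 1), β l * e1 (l * x) := funext hβ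
  rw [h2]
  refine continuous_finsetSum _ fun k _ => continuous_const.mul ?_
  exact continuous_e1.comp (continuous_const.mul continuous_id)

theorem exists_poly_w {k n R L K d h : ℕ} (hL : 0 < L) {ι : Type} [Fintype ι] [DecidableEq ι]
    (sl : ι → Fin R × (Fin n → Fin 4)) (hsl : Function.Injective sl)
    (hh : d + 1 + K < h) {Q : ℝ → ℝ} (hQ : TrigW d Q)
    (A : UnitAddTorus (Fin k) → ℕ) (hAK : ∀ x, A x ≤ K) (Sp : Finset (Fin k → ℤ))
    (c : (Fin k → ℤ) → ℂ) (a : (Fin k → ℤ) → ℕ) (haK : ∀ m ∈ Sp, a m ≤ K)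
    (X : ι → (Fin n → Fin L) → UnitAddTorus (Fin k)) :
    ∃ (s : ℕ → ℕ) (base : ι → ℕ) (g : ℝ → ℂ), (∀ t, s t ≤ K) ∧ Continuous g ∧
      (∀ x : ℝ, ∑ t ∈ Finset.range (R * (4 * L) ^ n), e1 (((t * h + s t : ℕ) : ℝ) * x) =
        (∑ j, ∑ y, PolS Sp c a x (X j y) *
          e1 (((base j : ℝ) + ∑ i : Fin n, ((y i : ℕ) : ℝ) * ((4 * L : ℕ) : ℝ) ^ (i : ℕ)) *
            (h * x))) + g x) ∧
      ∫ x in (0 : ℝ)..1, Q x * Real.sin (Real.pi * x) ^ 2 * ‖g x‖ ^ 2 ≤
        ((R * (4 * L) ^ n : ℕ) : ℝ) - Fintype.card ι * (L : ℝ) ^ n +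
          ∑ j, ∑ y, ∫ x in (0 : ℝ)..1, Q x * Real.sin (Real.pi * x) ^ 2 *
            ‖e1 ((A (X j y) : ℝ) * x) - PolS Sp c a x (X j y)‖ ^ 2 := by
  classical
  obtain ⟨e, he⟩ := exists_reindex n R L hL
  -- values on cells
  obtain ⟨S, hS⟩ : ∃ S : (Fin R × (Fin n → Fin 4)) × (Fin n → Fin L) → ℕ,
    S = fun q => if h : ∃ j, sl j = q.1 then A (X h.choose q.2) else 0 := ⟨_, rfl⟩
  obtain ⟨B, hB⟩ : ∃ B : (Fin R × (Fin n → Fin 4)) × (Fin n → Fin L) → ℝ → ℂ,
    B = fun q x => if h : ∃ j, sl j = q.1 then PolS Sp c a x (X h.choose q.2) else 0 := ⟨_, rfl⟩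
  have hch : ∀ j (h : ∃ j', sl j' = sl j), h.choose = j := fun j h => hsl h.choose_spec
  have hSj : ∀ j y, S (sl j, y) = A (X j y) := by
    intro j y
    rw [hS]
    have h : ∃ j', sl j' = sl j := ⟨j, rfl⟩
    simp only [dif_pos h]
    rw [hch j h]
  have hBj : ∀ j y x, B (sl j, y) x = PolS Sp c a x (X j y) := by
    intro j y x
    rw [hB]
    have h : ∃ j', sl j' = sl j := ⟨j, rfl⟩
    simp only [dif_pos h]
    rw [hch j h]
  have hS0 : ∀ q, (¬ ∃ j, sl j = q.1) → S q = 0 := by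
    intro q h
    rw [hS]
    simp only [dif_neg h]
  have hB0 : ∀ q x, (¬ ∃ j, sl j = q.1) → B q x = 0 := by
    intro q x h
    rw [hB]
    simp only [dif_neg h]
  have hSK : ∀ q, S q ≤ K := by
    intro q
    by_cases h : ∃ j, sl j = q.1
    · rw [hS]
      simp only [dif_pos h]
      exact hAK _
    · rw [hS0 q h]
      exact Nat.zero_le _
  have hBP : ∀ q, PK K (B q) := by
    intro q
    by_cases h : ∃ j, sl j = q.1
    · have h1 : B q = fun x => PolS Sp c a x (X h.choose q.2) := by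
        rw [hB]
        funext x
        simp only [dif_pos h]
      rw [h1]
      exact PK_PolS Sp c a haK _
    · have h1 : B q = fun _ => 0 := funext fun x => hB0 q x h
      rw [h1]
      exact PK_zero
  have hsum : ∀ {M : Type} [AddCommMonoid M] (Φ : (Fin R × (Fin n → Fin 4)) × (Fin n → Fin L) → M),
      (∀ q, (¬ ∃ j, sl j = q.1) → Φ q = 0) → ∑ q, Φ q = ∑ j, ∑ y, Φ (sl j, y) := by
    intro M _ Φ hΦ
    rw [← Fintype.sum_prod_type']
    refine (Fintype.sum_of_injective (fun q : ι × (Fin n → Fin L) => (sl q.1, q.2)) ?_ _ _ ?_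
      fun q => rfl).symm
    · rintro ⟨j, y⟩ ⟨j', y'⟩ h
      simp only [Prod.mk.injEq] at h
      rw [hsl h.1, h.2]
    · intro q hq
      refine hΦ q fun h => hq ?_
      obtain ⟨j, hj⟩ := h
      exact ⟨(j, q.2), by simp [hj]⟩
  -- the differences
  obtain ⟨D, hD⟩ : ∃ D : (Fin R × (Fin n → Fin 4)) × (Fin n → Fin L) → ℝ → ℂ,
    D = fun q x => e1 ((S q : ℝ) * x) - B q x := ⟨_, rfl⟩
  have hDP : ∀ q, PK K (D q) := by
    intro q
    rw [hD]
    refine PK_sub ?_ (hBP q)
    have h1 := PK_single (hSK q) 1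
    simpa using h1
  obtain ⟨b, hb⟩ : ∃ b : ℕ → ℝ → ℂ, b = fun t x =>
    if ht : t < R * (4 * L) ^ n then D (e.symm ⟨t, ht⟩) x else 0 := ⟨_, rfl⟩
  have hbP : ∀ t, PK K (b t) := by
    intro t
    by_cases ht : t < R * (4 * L) ^ n
    · have h1 : b t = D (e.symm ⟨t, ht⟩) := by
        rw [hb]
        funext x
        simp only [dif_pos ht]
      rw [h1]
      exact hDP _
    · have h1 : b t = fun _ => 0 := by
        rw [hb]
        funext x
        simp only [dif_neg ht]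
      rw [h1]
      exact PK_zero
  have hbe : ∀ q x, b (e q) x = D q x := by
    intro q x
    rw [hb]
    simp only [(e q).2, dif_pos, Fin.eta, Equiv.symm_apply_apply]
  obtain ⟨s, hs⟩ : ∃ s : ℕ → ℕ, s = fun t =>
    if ht : t < R * (4 * L) ^ n then S (e.symm ⟨t, ht⟩) else 0 := ⟨_, rfl⟩
  have hse : ∀ q, s (e q) = S q := by
    intro q
    rw [hs]
    simp only [(e q).2, dif_pos, Fin.eta, Equiv.symm_apply_apply]
  refine ⟨s, fun j => ((sl j).1 : ℕ) * (4 * L) ^ n +
      ∑ i : Fin n, ((sl j).2 i : ℕ) * L * (4 * L) ^ (i : ℕ),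
    fun x => ∑ t ∈ Finset.range (R * (4 * L) ^ n), b t x * e1 (((t * h : ℕ) : ℝ) * x),
    ?_, ?_, ?_, ?_⟩
  · intro t
    rw [hs]
    beta_reduce
    split_ifs
    · exact hSK _
    · exact Nat.zero_le _
  · refine continuous_finsetSum _ fun t _ => ?_
    exact (PK_cont (hbP t)).mul (continuous_e1.comp (continuous_const.mul continuous_id))
  · intro x
    beta_reduce
    rw [Finset.sum_range, Finset.sum_range, ← Equiv.sum_comp e, ← Equiv.sum_comp e]
    have h1 : ∀ q, e1 (((((e q : ℕ)) * h + s (e q) : ℕ) : ℝ) * x) =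
        B q x * e1 ((((e q : ℕ) * h : ℕ) : ℝ) * x) +
          b (e q) x * e1 ((((e q : ℕ) * h : ℕ) : ℝ) * x) := by
      intro q
      rw [hbe, hse, hD, ← add_mul]
      beta_reduce
      rw [add_sub_cancel, ← e1_add]
      congr 1
      push_cast
      ring
    rw [Finset.sum_congr rfl fun q _ => h1 q, Finset.sum_add_distrib]
    congr 1
    rw [hsum (fun q => B q x * e1 ((((e q : ℕ) * h : ℕ) : ℝ) * x))
      fun q hq => by rw [hB0 q x hq, zero_mul]]
    refine Finset.sum_congr rfl fun j _ => Finset.sum_congr rfl fun y _ => ?_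
    rw [hBj]
    congr 2
    have h3 := he (sl j).1 (sl j).2 y
    rw [Prod.mk.eta] at h3
    rw [h3]
    push_cast
    rw [← mul_assoc]
    congr 1
    congr 1
    rw [add_assoc, ← Finset.sum_add_distrib]
    congr 1
    exact Finset.sum_congr rfl fun i _ => by ring
  · have hio := int_orth (N := R * (4 * L) ^ n) hh hQ.trig.mul_sin b hbP
    beta_reduce at hio ⊢
    rw [hio]
    obtain ⟨w, hw⟩ : ∃ w : (Fin R × (Fin n → Fin 4)) × (Fin n → Fin L) → ℝ,
      w = fun q => ∫ x in (0 : ℝ)..1, Q x * Real.sin (Real.pi * x) ^ 2 * ‖D q x‖ ^ 2 := ⟨_, rfl⟩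
    have h2 : ∑ t ∈ Finset.range (R * (4 * L) ^ n),
        ∫ x in (0 : ℝ)..1, Q x * Real.sin (Real.pi * x) ^ 2 * ‖b t x‖ ^ 2 = ∑ q, w q := by
      rw [Finset.sum_range, ← Equiv.sum_comp e]
      refine Finset.sum_congr rfl fun q _ => ?_
      rw [hw]
      simp only [hbe]
    rw [h2]
    have hQc : Continuous Q := hQ.trig.continuous
    have hjunk : ∀ q, (¬ ∃ j, sl j = q.1) → w q ≤ 1 := by
      intro q hq
      have h3 : w q = ∫ x in (0 : ℝ)..1, Q x * Real.sin (Real.pi * x) ^ 2 := by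
        rw [hw]
        beta_reduce
        refine intervalIntegral.integral_congr fun x _ => ?_
        rw [hD]
        beta_reduce
        rw [hS0 q hq, hB0 q x hq, sub_zero, norm_e1, one_pow, mul_one]
      rw [h3]
      refine le_trans (intervalIntegral.integral_mono_on (g := Q) zero_le_one ?_ ?_
        fun x _ => ?_) hQ.one.le
      · exact (hQc.mul ((Real.continuous_sin.comp
          (continuous_const.mul continuous_id)).pow 2)).intervalIntegrable _ _
      · exact hQc.intervalIntegrable _ _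
      · have h4 := hQ.nonneg x
        have h5 : Real.sin (Real.pi * x) ^ 2 ≤ 1 := Real.sin_sq_le_one _
        nlinarith
    obtain ⟨Φ, hΦ⟩ : ∃ Φ : (Fin R × (Fin n → Fin 4)) × (Fin n → Fin L) → ℝ,
      Φ = fun q => if ∃ j, sl j = q.1 then w q - 1 else 0 := ⟨_, rfl⟩
    have h3 : ∀ q, w q ≤ 1 + Φ q := by
      intro q
      by_cases hq : ∃ j, sl j = q.1
      · rw [hΦ]
        simp only [if_pos hq]
        linarith
      · rw [hΦ]
        simp only [if_neg hq]
        linarith [hjunk q hq]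
    have h4 : ∑ _q : (Fin R × (Fin n → Fin 4)) × (Fin n → Fin L), (1 : ℝ) =
        ((R * (4 * L) ^ n : ℕ) : ℝ) := by
      rw [Finset.sum_const, Finset.card_univ, nsmul_eq_mul, mul_one, Fintype.card_congr e,
        Fintype.card_fin]
    have h5 : ∑ q, Φ q = ∑ j, ∑ y, (w (sl j, y) - 1) := by
      rw [hsum Φ fun q hq => by rw [hΦ]; simp only [if_neg hq]]
      refine Finset.sum_congr rfl fun j _ => Finset.sum_congr rfl fun y _ => ?_
      have h : ∃ j', sl j' = (sl j, y).1 := ⟨j, rfl⟩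
      rw [hΦ]
      simp only [if_pos h]
    have h6 : ∀ j y, w (sl j, y) = ∫ x in (0 : ℝ)..1, Q x * Real.sin (Real.pi * x) ^ 2 *
            ‖e1 ((A (X j y) : ℝ) * x) - PolS Sp c a x (X j y)‖ ^ 2 := by
      intro j y
      rw [hw, hD]
      simp only [hSj, hBj]
    calc ∑ q, w q ≤ ∑ q, (1 + Φ q) := Finset.sum_le_sum fun q _ => h3 q
      _ = ((R * (4 * L) ^ n : ℕ) : ℝ) + ∑ j, ∑ y, (w (sl j, y) - 1) := by
        rw [Finset.sum_add_distrib, h4, h5]
      _ = _ := by
        simp only [h6, Finset.sum_sub_distrib, Finset.sum_const, Finset.card_univ, nsmul_eq_mul,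
          mul_one, Fintype.card_fun, Fintype.card_fin]
        push_cast
        ring

end Vale.Agent.P130B
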