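import Vale.Agent.Lib.P130B.F.S1
import Vale.Agent.Lib.P130B.F.S3
import Vale.Agent.Lib.P110F.FinalA

/-!
# P130B part I, module U3: the main part

copy of P110F FinalA f_decomp and main_part with the weight `Q`, `int_scale` for the moments.
-/

namespace Vale.Agent.P130B

open MeasureTheory Filter Topology Vale.Agent.P110F
open scoped ComplexConjugate

theorem f_decomp_w {k n : ℕ} {ι : Type} [Fintype ι] (cc : ℝ) (L : ℕ)
    (H : ι → Fin k → Matrix (Fin n) (Fin n) ℤ) (β : ι → Fin k → Fin n → ℝ)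
    (Sp : Finset (Fin k → ℤ)) (c : (Fin k → ℤ) → ℂ) (a : (Fin k → ℤ) → ℕ)
    (α : UnitAddTorus (Fin k)) (base : ι → ℝ) (θ x : ℝ) :
    ∑ j : ι, ∑ y : Fin n → Fin L, PolS Sp c a θ
          ((fun i => (phi cc L (H j) (β j) y i : UnitAddCircle)) + α) *
      e1 ((base j + ∑ i : Fin n, ((y i : ℕ) : ℝ) * ((4 * L : ℕ) : ℝ) ^ (i : ℕ)) * x) =
    ∑ p : ι × Sp × Bool, e1 ((a p.2.1.1 : ℝ) * θ) * cf c α p * e1 (base p.1 * x) *
      SS (scl cc (∑ i, (sgz p.2.2 * p.2.1.1 i) • H p.1 i))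
        (fun b => ∑ i, ((sgz p.2.2 * p.2.1.1 i : ℤ) : ℝ) * β p.1 i b) L x := by
  rw [Fintype.sum_prod_type]
  refine Finset.sum_congr rfl fun j _ => ?_
  rw [Fintype.sum_prod_type]
  have key : ∀ (m : Fin k → ℤ) (q' : ℂ), ∑ y : Fin n → Fin L, q' * UnitAddTorus.mFourier m
        ((fun i => (phi cc L (H j) (β j) y i : UnitAddCircle)) + α) *
        e1 ((base j + ∑ i : Fin n, ((y i : ℕ) : ℝ) * ((4 * L : ℕ) : ℝ) ^ (i : ℕ)) * x) =
      q' * UnitAddTorus.mFourier m α * e1 (base j * x) *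
        SS (scl cc (∑ i, m i • H j i)) (fun a => ∑ i, (m i : ℝ) * β j i a) L x := by
    intro m q'
    rw [mul_assoc (q' * _), ← cell_sum, Finset.mul_sum]
    refine Finset.sum_congr rfl fun y _ => ?_
    rw [mFourier_add', mFourier_coe]
    ring
  have h0 : ∀ y : Fin n → Fin L, PolS Sp c a θ
      ((fun i => (phi cc L (H j) (β j) y i : UnitAddCircle)) + α) *
      e1 ((base j + ∑ i : Fin n, ((y i : ℕ) : ℝ) * ((4 * L : ℕ) : ℝ) ^ (i : ℕ)) * x) =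
      ∑ m ∈ Sp, ((e1 ((a m : ℝ) * θ) * c m) * UnitAddTorus.mFourier m
          ((fun i => (phi cc L (H j) (β j) y i : UnitAddCircle)) + α) *
        e1 ((base j + ∑ i : Fin n, ((y i : ℕ) : ℝ) * ((4 * L : ℕ) : ℝ) ^ (i : ℕ)) * x) +
        (e1 ((a m : ℝ) * θ) * conj (c m)) * UnitAddTorus.mFourier (-m)
          ((fun i => (phi cc L (H j) (β j) y i : UnitAddCircle)) + α) *
        e1 ((base j + ∑ i : Fin n, ((y i : ℕ) : ℝ) * ((4 * L : ℕ) : ℝ) ^ (i : ℕ)) * x)) := by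
    intro y
    unfold PolS
    rw [Finset.sum_mul]
    refine Finset.sum_congr rfl fun m _ => ?_
    ring
  rw [Finset.sum_congr rfl fun y _ => h0 y, Finset.sum_comm,
    ← Finset.sum_coe_sort]
  refine Finset.sum_congr rfl fun m _ => ?_
  rw [Finset.sum_add_distrib, key, key, Fintype.sum_bool]
  congr 1
  · have hst : sgz true = 1 := rfl
    simp only [cf, if_true, hst, one_mul]
    ring
  · have hm : (-(m : Fin k → ℤ)) = fun i => sgz false * m.1 i := by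
      funext i
      simp [sgz]
    rw [hm]
    simp only [cf, Bool.false_eq_true, if_false]
    ring

/-- `SS` is periodic. -/
theorem SS_periodic {n : ℕ} (H : Matrix (Fin n) (Fin n) ℝ) (b : Fin n → ℝ) (L : ℕ) (x : ℝ) :
    ‖SS H b L (x + 1)‖ = ‖SS H b L x‖ := by
  congr 1
  unfold SS
  refine Finset.sum_congr rfl fun y _ => ?_
  have h1 : quad H (fun i => ((y i : ℕ) : ℝ)) / (2 * L) +
      ∑ i, (b i + kr n L (x + 1) i) * ((y i : ℕ) : ℝ) =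
      (quad H (fun i => ((y i : ℕ) : ℝ)) / (2 * L) +
      ∑ i, (b i + kr n L x i) * ((y i : ℕ) : ℝ)) +
      ((∑ i : Fin n, (((4 * L) ^ (i : ℕ) * (y i : ℕ) : ℕ) : ℤ) : ℤ) : ℝ) := by
    rw [add_assoc]
    congr 1
    push_cast
    rw [← Finset.sum_add_distrib]
    refine Finset.sum_congr rfl fun i _ => ?_
    unfold kr
    push_cast
    ring
  rw [h1, e1_add, e1_int, mul_one]

theorem main_part_w {k n L J d h : ℕ} (hdh : d < h) {Q : ℝ → ℝ} (hQ : TrigW d Q)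
    (hJ1 : (1 : ℝ) ≤ J) {ι : Type} [Fintype ι] [DecidableEq ι]
    (hJ : J = Fintype.card ι) {cc : ℝ} (hc : 0 < cc) (Sp1 : Finset (Fin k → ℤ))
    (q : (Fin k → ℤ) → ℂ) (a : (Fin k → ℤ) → ℕ) {V : ℝ} (hV : V = ∑ m ∈ Sp1, ‖q m‖ ^ 2)
    (hV2 : 2 * V ≤ 1) {τ : ℝ}
    (hτ0 : 0 < τ) (hτ1 : τ ≤ 1 / 1000) (hVτ : 1 - τ ≤ 2 * V)
    (A : ι × Sp1 × Bool → Matrix (Fin n) (Fin n) ℤ) (b : ι × Sp1 × Bool → Fin n → ℝ)
    (hAdet0 : ∀ p, (A p).det ≠ 0)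
    (hvb : ∀ p, ‖q p.2.1.1‖ ^ 2 ≤ (1 + τ) * J * cc ^ n * |((A p).det : ℝ)|) {δ : ℝ} (hδ0 : 0 < δ)
    (hKδ : (Fintype.card (ι × Sp1 × Bool) : ℝ) ^ 2 * Real.sqrt δ ≤ τ)
    (hKδ2 : (Fintype.card (ι × Sp1 × Bool) : ℝ) ^ 2 * δ ≤ τ) (hL0 : 0 < L)
    (hL1 : ∀ p p' : ι × Sp1 × Bool, p ≠ p' →
      (∫ x in (0 : ℝ)..1, ‖SS (scl cc (A p)) (b p) L x‖ ^ 2 *
        ‖SS (scl cc (A p')) (b p') L x‖ ^ 2) / ((L : ℝ) ^ n) ^ 2 ≤ δ)
    (hL2 : ∀ p : ι × Sp1 × Bool,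
      (∫ x in (0 : ℝ)..1, ‖SS (scl cc (A p)) (b p) L x‖ ^ 2 *
        ‖SS (scl cc (A p)) (b p) L x‖ ^ 2) / ((L : ℝ) ^ n) ^ 2 ≤
        1 / (cc ^ n * |((A p).det : ℝ)|) + τ) (α : UnitAddTorus (Fin k)) (base : ι → ℕ)
    (f : ℝ → ℂ) (hf : ∀ x, f x = ∑ p : ι × Sp1 × Bool,
      e1 ((a p.2.1.1 : ℝ) * x) * cf q α p * e1 ((base p.1 : ℝ) * (h * x)) *
      SS (scl cc (A p)) (b p) L (h * x)) :
    ∫ x in (0 : ℝ)..1, Q x * |‖f x‖ ^ 2 / (J * (L : ℝ) ^ n) - 1| ≤ τ + Real.sqrt (5 * τ) := by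
  have hJ0 : (0 : ℝ) < J := by linarith
  have hLr : (0 : ℝ) < (L : ℝ) ^ n := by
    have : (0 : ℝ) < L := by exact_mod_cast hL0
    positivity
  obtain ⟨γ, hγ⟩ : ∃ γ : ι × Sp1 × Bool → ℝ → ℂ,
    γ = fun p x => e1 ((a p.2.1.1 : ℝ) * x) * cf q α p * e1 ((base p.1 : ℝ) * (h * x)) /
      (Real.sqrt J : ℂ) := ⟨_, rfl⟩
  have hsJ : (Real.sqrt J : ℂ) ≠ 0 := by
    exact_mod_cast (Real.sqrt_pos.2 hJ0).ne'
  have hfγ : ∀ x, f x = (Real.sqrt J : ℂ) * ∑ p, γ p x * SS (scl cc (A p)) (b p) L (h * x) := by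
    intro x
    rw [hf, Finset.mul_sum]
    refine Finset.sum_congr rfl fun p _ => ?_
    rw [hγ]
    beta_reduce
    field_simp
  have hfn : ∀ x, ‖f x‖ ^ 2 / (J * (L : ℝ) ^ n) =
      ‖∑ p, γ p x * SS (scl cc (A p)) (b p) L (h * x)‖ ^ 2 / (L : ℝ) ^ n := by
    intro x
    rw [hfγ, norm_mul, mul_pow, Complex.norm_real, Real.norm_of_nonneg (Real.sqrt_nonneg _),
      Real.sq_sqrt hJ0.le]
    field_simp
  have hγc : ∀ p, Continuous (γ p) := by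
    intro p
    rw [hγ]
    refine Continuous.div_const (Continuous.mul (Continuous.mul ?_ continuous_const) ?_) _
    · exact continuous_e1.comp (continuous_const.mul continuous_id)
    · exact continuous_e1.comp (continuous_const.mul (continuous_const.mul continuous_id))
  have hγw : ∀ p x, ‖γ p x‖ ^ 2 = ‖q p.2.1.1‖ ^ 2 / J := by
    intro p x
    rw [hγ]
    beta_reduce
    rw [norm_div, norm_mul, norm_mul, norm_cf, norm_e1, norm_e1, mul_one, one_mul, div_pow,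
      Complex.norm_real, Real.norm_of_nonneg (Real.sqrt_nonneg _), Real.sq_sqrt hJ0.le]
  have hwsum : ∑ p : ι × Sp1 × Bool, ‖q p.2.1.1‖ ^ 2 / (J : ℝ) = 2 * V := by
    rw [Fintype.sum_prod_type]
    simp only [Fintype.sum_prod_type, Finset.sum_const, Finset.card_univ,
      nsmul_eq_mul, Fintype.card_bool]
    rw [← hJ, Finset.sum_coe_sort Sp1 (fun m => ((2 : ℕ) : ℝ) * (‖q m‖ ^ 2 / (J : ℝ))),
      hV, Finset.mul_sum, Finset.mul_sum]
    refine Finset.sum_congr rfl fun m _ => ?_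
    push_cast
    field_simp
  have hvle : ∀ m ∈ Sp1, ‖q m‖ ^ 2 ≤ 1 := by
    intro m hm
    have h1 : ‖q m‖ ^ 2 ≤ ∑ m ∈ Sp1, ‖q m‖ ^ 2 :=
      Finset.single_le_sum (f := fun m => ‖q m‖ ^ 2) (fun _ _ => by positivity) hm
    rw [← hV] at h1
    linarith
  have hMM : ∀ p : ι × Sp1 × Bool, ‖q p.2.1.1‖ ^ 2 / (J : ℝ) *
      (1 / (cc ^ n * |((A p).det : ℝ)|) + τ) ≤ 1 + 2 * τ := by
    intro p
    have h1 := hvb p
    have h2 : 0 < |((A p).det : ℝ)| := abs_pos.2 (by exact_mod_cast hAdet0 p)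
    have h3 : 0 < cc ^ n * |((A p).det : ℝ)| := by positivity
    have h4 : ‖q p.2.1.1‖ ^ 2 / (J : ℝ) * (1 / (cc ^ n * |((A p).det : ℝ)|)) ≤ 1 + τ := by
      rw [div_mul_div_comm, mul_one, div_le_iff₀ (by positivity)]
      calc ‖q p.2.1.1‖ ^ 2 ≤ _ := h1
        _ = (1 + τ) * (J * (cc ^ n * |((A p).det : ℝ)|)) := by ring
    have h5 : ‖q p.2.1.1‖ ^ 2 / (J : ℝ) ≤ 1 := by
      rw [div_le_one hJ0]
      exact (hvle _ p.2.1.2).trans hJ1
    rw [mul_add]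
    nlinarith
  have hsc : ∀ p p' : ι × Sp1 × Bool, ∫ x in (0 : ℝ)..1,
      Q x * (‖SS (scl cc (A p)) (b p) L (h * x)‖ ^ 2 * ‖SS (scl cc (A p')) (b p') L (h * x)‖ ^ 2) =
      ∫ x in (0 : ℝ)..1, ‖SS (scl cc (A p)) (b p) L x‖ ^ 2 *
        ‖SS (scl cc (A p')) (b p') L x‖ ^ 2 := by
    intro p p'
    exact int_scale hdh hQ (Φ := fun x => ‖SS (scl cc (A p)) (b p) L x‖ ^ 2 *
        ‖SS (scl cc (A p')) (b p') L x‖ ^ 2)
      (((cont_SS _ _ _).norm.pow 2).mul ((cont_SS _ _ _).norm.pow 2))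
      (fun x => by rw [SS_periodic, SS_periodic])
  have hmain := main_estimate_w Q hQ.trig.continuous hQ.nonneg hQ.one
    (fun p x => SS (scl cc (A p)) (b p) L (h * x)) γ
    (fun p => ‖q p.2.1.1‖ ^ 2 / (J : ℝ)) (fun p => by positivity)
    (fun p => (cont_SS _ _ _).comp (continuous_const.mul continuous_id)) hγc
    hγw hLr hδ0.le (fun p => (int_scale hdh hQ (Φ := fun x => ‖SS (scl cc (A p)) (b p) L x‖ ^ 2)
      ((cont_SS _ _ _).norm.pow 2) (fun x => by rw [SS_periodic])).trans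
        (integral_normSq hL0 _ _))
    (fun p p' hpp => by rw [hsc]; exact hL1 p p' hpp)
    (fun p => 1 / (cc ^ n * |((A p).det : ℝ)|) + τ) (fun p => by rw [hsc]; exact hL2 p)
    (τ := 2 * τ) hMM
    (by rw [hwsum]; exact hV2) (by rw [hwsum]; linarith) (by linarith) (by linarith)
  simp only [hfn]
  refine hmain.trans ?_
  refine add_le_add hKδ (Real.sqrt_le_sqrt ?_)
  linarith

end Vale.Agent.P130B
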