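import Vale.Agent.Lib.P130B.F.S4
import Vale.Agent.Lib.P130B.F.T4
import Vale.Agent.Lib.P130B.F.U1
import Vale.Agent.Lib.P130B.F.U2
import Vale.Agent.Lib.P130B.F.U3
import Vale.Agent.Lib.P110F.CellsMain

/-!
# P130B part I, module U

final assembly: for every `ε, η > 0` there is a bound `M` on the jitters such that arbitrarily
long sums of exponentials with positions `j h + s j`, `s j ≤ M`, are flat in mean on `[η, 1 - η]`
for any trigonometric weight of degree less than `h - 2 M - 1`.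
-/

namespace Vale.Agent.P130B

open MeasureTheory Filter Topology Vale.Agent.P110F
open scoped ComplexConjugate

theorem sin_lower {η x : ℝ} (hη : 0 < η) (hx1 : η ≤ x) (hx2 : x ≤ 1 - η) :
    Real.sin (Real.pi * η) ^ 2 ≤ Real.sin (Real.pi * x) ^ 2 := by
  have hpi := Real.pi_pos
  have hη2 : η ≤ 1 / 2 := by linarith
  have h0 : 0 ≤ Real.sin (Real.pi * η) :=
    Real.sin_nonneg_of_nonneg_of_le_pi (by positivity) (by nlinarith)
  have key : ∀ y : ℝ, η ≤ y → y ≤ 1 / 2 →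
      Real.sin (Real.pi * η) ≤ Real.sin (Real.pi * y) := by
    intro y hy1 hy2
    apply Real.sin_le_sin_of_le_of_le_pi_div_two
    · nlinarith
    · nlinarith
    · exact mul_le_mul_of_nonneg_left hy1 hpi.le
  refine pow_le_pow_left₀ h0 ?_ 2
  by_cases hx : x ≤ 1 / 2
  · exact key x hx1 hx
  · have h1 := key (1 - x) (by linarith) (by linarith)
    have h2 : Real.pi * (1 - x) = Real.pi - Real.pi * x := by ring
    rw [h2, Real.sin_pi_sub] at h1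
    exact h1

theorem weight_cut {Q : ℝ → ℝ} (hQc : Continuous Q) (hQ0 : ∀ x, 0 ≤ Q x) {g : ℝ → ℂ}
    (hg : Continuous g) {η : ℝ} (hη : 0 < η) (hη1 : η ≤ 1 / 2) {B : ℝ}
    (h : ∫ x in (0 : ℝ)..1, Q x * Real.sin (Real.pi * x) ^ 2 * ‖g x‖ ^ 2 ≤ B) :
    Real.sin (Real.pi * η) ^ 2 * ∫ x in η..(1 - η), Q x * ‖g x‖ ^ 2 ≤ B := by
  have hc1 : Continuous fun x => Q x * Real.sin (Real.pi * x) ^ 2 * ‖g x‖ ^ 2 := by fun_prop
  have hc2 : Continuous fun x => Real.sin (Real.pi * η) ^ 2 * (Q x * ‖g x‖ ^ 2) := by fun_prop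
  rw [← intervalIntegral.integral_const_mul]
  have h1 : ∫ x in η..(1 - η), Real.sin (Real.pi * η) ^ 2 * (Q x * ‖g x‖ ^ 2) ≤
      ∫ x in η..(1 - η), Q x * Real.sin (Real.pi * x) ^ 2 * ‖g x‖ ^ 2 := by
    refine intervalIntegral.integral_mono_on (by linarith) (hc2.intervalIntegrable _ _)
      (hc1.intervalIntegrable _ _) fun x hx => ?_
    have h2 := sin_lower hη hx.1 hx.2
    have h3 : 0 ≤ Q x * ‖g x‖ ^ 2 := mul_nonneg (hQ0 x) (by positivity)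
    nlinarith
  have h2 : ∫ x in η..(1 - η), Q x * Real.sin (Real.pi * x) ^ 2 * ‖g x‖ ^ 2 ≤
      ∫ x in (0 : ℝ)..1, Q x * Real.sin (Real.pi * x) ^ 2 * ‖g x‖ ^ 2 := by
    refine intervalIntegral.integral_mono_interval hη.le (by linarith) (by linarith) ?_
      (hc1.intervalIntegrable _ _)
    exact Filter.Eventually.of_forall fun x => by
      have := hQ0 x
      positivity
  exact (h1.trans h2).trans h

theorem exists_tau {ε σ : ℝ} (hε : 0 < ε) (hσ : 0 < σ) (hσ1 : σ ≤ 1) :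
    ∃ τ : ℝ, 0 < τ ∧ τ ≤ 1 / 1000 ∧ τ + Real.sqrt (5 * τ) ≤ 1 ∧
      Real.sqrt (2 * τ / σ) ≤ 1 ∧
      3 * (τ + Real.sqrt (5 * τ)) + 5 * Real.sqrt (2 * τ / σ) ≤ ε := by
  obtain ⟨e, he⟩ : ∃ e : ℝ, e = min ε 1 := ⟨_, rfl⟩
  have he0 : 0 < e := by
    rw [he]
    exact lt_min hε one_pos
  have he1 : e ≤ 1 := by
    rw [he]
    exact min_le_right _ _
  have he2 : e ≤ ε := by
    rw [he]
    exact min_le_left _ _
  have h5 : Real.sqrt (5 * (σ * e ^ 2 / 1000)) ≤ e / 14 := by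
    apply Real.sqrt_le_iff.2
    refine ⟨by positivity, ?_⟩
    nlinarith [sq_nonneg e, mul_le_mul_of_nonneg_right hσ1 (sq_nonneg e)]
  have h2 : Real.sqrt (2 * (σ * e ^ 2 / 1000) / σ) ≤ e / 22 := by
    apply Real.sqrt_le_iff.2
    refine ⟨by positivity, ?_⟩
    have h3 : 2 * (σ * e ^ 2 / 1000) / σ = e ^ 2 / 500 := by
      field_simp
      ring
    rw [h3]
    nlinarith [sq_nonneg e]
  have h4 : σ * e ^ 2 / 1000 ≤ e / 1000 := by
    have : σ * e ^ 2 ≤ 1 * (e * 1) := by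
      refine mul_le_mul hσ1 ?_ (sq_nonneg e) zero_le_one
      nlinarith
    linarith
  refine ⟨σ * e ^ 2 / 1000, by positivity, by linarith, ?_, ?_, ?_⟩ <;> linarith

theorem flat01 {ε η : ℝ} (hε : 0 < ε) (hη : 0 < η) :
    ∃ M : ℕ, ∀ m₀ : ℕ, ∃ m : ℕ, m₀ ≤ m ∧ 0 < m ∧ ∀ (d h : ℕ) (Q : ℝ → ℝ),
      d + 2 * M + 2 ≤ h → TrigW d Q → ∃ s : ℕ → ℕ, (∀ j, s j ≤ M) ∧
        ∫ x in η..(1 - η), Q x * |‖∑ j ∈ Finset.range m,
          e1 (((j * h + s j : ℕ) : ℝ) * x)‖ ^ 2 / m - 1| ≤ ε := by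
  by_cases hη1 : η ≤ 1 / 2
  swap
  · -- the interval is reversed
    refine ⟨0, fun m₀ => ⟨m₀ + 1, by omega, by omega, fun d h Q _ hQ =>
      ⟨fun _ => 0, fun _ => le_rfl, ?_⟩⟩⟩
    rw [intervalIntegral.integral_symm]
    have h1 : 0 ≤ ∫ x in (1 - η)..η, Q x * |‖∑ j ∈ Finset.range (m₀ + 1),
        e1 (((j * h + 0 : ℕ) : ℝ) * x)‖ ^ 2 / ((m₀ + 1 : ℕ) : ℝ) - 1| :=
      intervalIntegral.integral_nonneg (by linarith) fun x _ =>
        mul_nonneg (hQ.nonneg x) (abs_nonneg _)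
    linarith
  obtain ⟨σ, hσ⟩ : ∃ σ : ℝ, σ = Real.sin (Real.pi * η) ^ 2 := ⟨_, rfl⟩
  have hσ0 : 0 < σ := by
    rw [hσ]
    have : 0 < Real.sin (Real.pi * η) :=
      Real.sin_pos_of_pos_of_lt_pi (by positivity) (by nlinarith [Real.pi_pos])
    positivity
  have hσ1 : σ ≤ 1 := by
    rw [hσ]
    exact Real.sin_sq_le_one _
  obtain ⟨τ, hτ0, hτ1, hτ5, hτ2, hτε⟩ := exists_tau hε hσ0 hσ1
  obtain ⟨K, k, A, Sp, c, a, hA, hAK, hLNO, haK, hc0, hne, hV2, hVτ, hint⟩ := exists_Phi hτ0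
  refine ⟨K + 1, fun m₀ => ?_⟩
  obtain ⟨n, cc, ι, fι, dι, H, β, hcc, hC0, hsymm, hdet, hrow, hv, hsep⟩ :=
    exists_cells k Sp hLNO hne (fun m => ‖c m‖ ^ 2)
      (fun m hm => by
        have := norm_pos_iff.2 (hc0 m hm)
        positivity) hV2 hτ0 (fun n => ⌈(4 : ℝ) ^ n / τ⌉₊ + m₀ + 1)
  obtain ⟨J, hJ⟩ : ∃ J : ℕ, J = Fintype.card ι := ⟨_, rfl⟩
  rw [← hJ] at hC0
  have hJm : m₀ + 1 ≤ J := by omega
  have hJ1 : (1 : ℝ) ≤ J := by exact_mod_cast (by omega : 1 ≤ J)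
  have hJ0 : (0 : ℝ) < J := by linarith
  have hJ4 : (4 : ℝ) ^ n ≤ τ * J := by
    have h1 : (4 : ℝ) ^ n / τ ≤ (⌈(4 : ℝ) ^ n / τ⌉₊ : ℝ) := Nat.le_ceil _
    have h2 : (⌈(4 : ℝ) ^ n / τ⌉₊ : ℝ) ≤ J := Nat.cast_le.2 (by omega)
    have h3 := h1.trans h2
    rw [div_le_iff₀ hτ0] at h3
    linarith
  obtain ⟨R, hR1, hR2⟩ := exists_R J n
  obtain ⟨sl, hsl⟩ := exists_emb (ι := ι) (n := n) (R := R) (by rw [← hJ]; exact hR1)
  -- the threshold
  obtain ⟨κ, hκ⟩ : ∃ κ : ℝ, κ = (Fintype.card (ι × Sp × Bool) : ℝ) ^ 2 := ⟨_, rfl⟩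
  have hκ0 : 0 ≤ κ := by
    rw [hκ]
    positivity
  obtain ⟨δ, hδ0, hKδ, hKδ2⟩ : ∃ δ : ℝ, 0 < δ ∧ κ * Real.sqrt δ ≤ τ ∧ κ * δ ≤ τ := by
    refine ⟨(τ / (κ + 1)) ^ 2, by positivity, ?_, ?_⟩
    · rw [Real.sqrt_sq (by positivity), mul_div_assoc', div_le_iff₀ (by positivity)]
      nlinarith
    · have h1 : τ / (κ + 1) ≤ 1 := by
        rw [div_le_one (by positivity)]
        linarith
      have h2 : 0 ≤ τ / (κ + 1) := by positivity
      have h3 : κ * (τ / (κ + 1)) ≤ τ := by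
        rw [mul_div_assoc', div_le_iff₀ (by positivity)]
        nlinarith
      calc κ * (τ / (κ + 1)) ^ 2 = (κ * (τ / (κ + 1))) * (τ / (κ + 1)) := by ring
        _ ≤ τ * 1 := mul_le_mul h3 h1 h2 hτ0.le
        _ = τ := mul_one _
  rw [hκ] at hKδ hKδ2
  -- the pieces
  have hAdet : ∀ p : ι × Sp × Bool, |((∑ i, (sgz p.2.2 * p.2.1.1 i) • H p.1 i).det : ℝ)| =
      |((∑ i, p.2.1.1 i • H p.1 i).det : ℝ)| := fun p => sgn_det (sgz_cases _) _ _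
  have hAdet0 : ∀ p : ι × Sp × Bool, (∑ i, (sgz p.2.2 * p.2.1.1 i) • H p.1 i).det ≠ 0 := by
    intro p h
    have h1 := hAdet p
    rw [h, Int.cast_zero, abs_zero] at h1
    have h2 := abs_eq_zero.1 h1.symm
    exact hdet p.1 p.2.1.1 p.2.1.2 (by exact_mod_cast h2)
  have hAsymm : ∀ p : ι × Sp × Bool, (∑ i, (sgz p.2.2 * p.2.1.1 i) • H p.1 i).IsSymm :=
    fun p => sgn_symm (fun i => sgz p.2.2 * p.2.1.1 i) (hsymm p.1)
  have hArow : ∀ (p : ι × Sp × Bool) (b : Fin n),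
      ∑ b', |scl cc (∑ i, (sgz p.2.2 * p.2.1.1 i) • H p.1 i) b b'| ≤ 1 / 4 := by
    intro p b
    simp only [sgn_scl (sgz_cases p.2.2) cc p.2.1.1 (H p.1)]
    exact hrow p.1 p.2.1.1 p.2.1.2 b
  have hevL : ∀ᶠ L : ℕ in atTop, 0 < L ∧ (∀ p p' : ι × Sp × Bool, p ≠ p' →
      (∫ x in (0 : ℝ)..1, ‖SS (scl cc (∑ i, (sgz p.2.2 * p.2.1.1 i) • H p.1 i))
          (fun b => ∑ i, ((sgz p.2.2 * p.2.1.1 i : ℤ) : ℝ) * β p.1 i b) L x‖ ^ 2 *
        ‖SS (scl cc (∑ i, (sgz p'.2.2 * p'.2.1.1 i) • H p'.1 i))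
          (fun b => ∑ i, ((sgz p'.2.2 * p'.2.1.1 i : ℤ) : ℝ) * β p'.1 i b) L x‖ ^ 2) /
          ((L : ℝ) ^ n) ^ 2 ≤ δ) ∧ ∀ p : ι × Sp × Bool,
      (∫ x in (0 : ℝ)..1, ‖SS (scl cc (∑ i, (sgz p.2.2 * p.2.1.1 i) • H p.1 i))
          (fun b => ∑ i, ((sgz p.2.2 * p.2.1.1 i : ℤ) : ℝ) * β p.1 i b) L x‖ ^ 2 *
        ‖SS (scl cc (∑ i, (sgz p.2.2 * p.2.1.1 i) • H p.1 i))
          (fun b => ∑ i, ((sgz p.2.2 * p.2.1.1 i : ℤ) : ℝ) * β p.1 i b) L x‖ ^ 2) /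
          ((L : ℝ) ^ n) ^ 2 ≤
        1 / (cc ^ n * |((∑ i, (sgz p.2.2 * p.2.1.1 i) • H p.1 i).det : ℝ)|) + τ := by
    refine (eventually_gt_atTop 0).and (Filter.Eventually.and ?_ ?_)
    · refine Filter.eventually_all.2 fun p => Filter.eventually_all.2 fun p' => ?_
      by_cases hpp : p = p'
      · exact Filter.Eventually.of_forall fun L h => absurd hpp h
      · have h1 := moment_sep hcc hcc _ _ (hAdet0 p) (hAdet0 p') (hAsymm p) (hAsymm p')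
          (hArow p) (hArow p') _ _ (cells_sep hsep p p' hpp)
        filter_upwards [h1.eventually (eventually_le_nhds hδ0)] with L hL _
        exact hL
    · exact Filter.eventually_all.2 fun p =>
        moment_self hcc _ (hAdet0 p) (hAsymm p) (hArow p) _ hτ0
  obtain ⟨L, hL0, hL1, hL2⟩ := hevL.exists
  have hLr : (0 : ℝ) < (L : ℝ) ^ n := by
    have : (0 : ℝ) < L := by exact_mod_cast hL0
    positivity
  have hL1n : 1 ≤ L ^ n := Nat.one_le_pow _ _ hL0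
  have hmJ : J ≤ R * (4 * L) ^ n := by
    rw [mul_pow, ← mul_assoc]
    exact hR1.trans (Nat.le_mul_of_pos_right _ hL1n)
  refine ⟨R * (4 * L) ^ n, by omega, by omega, fun d h Q hdh hQ => ?_⟩
  have hQc : Continuous Q := hQ.trig.continuous
  obtain ⟨α, hα⟩ := shift_part_w hQ hA hAK Sp c a hint
    (fun y : ι × (Fin n → Fin L) => fun i => (phi cc L (H y.1) (β y.1) y.2 i : UnitAddCircle))
  rw [Fintype.card_prod, Fintype.card_fun, Fintype.card_fin, Fintype.card_fin,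
    Fintype.sum_prod_type, ← hJ] at hα
  obtain ⟨s, base, g, hs, hg, hpoly, hgint⟩ := exists_poly_w (d := d) (h := h) hL0 sl hsl
    (by omega) hQ A hAK Sp c a haK
    (fun j y => (fun i => (phi cc L (H j) (β j) y i : UnitAddCircle)) + α)
  obtain ⟨f, hf⟩ : ∃ f : ℝ → ℂ, f = fun x => ∑ p : ι × Sp × Bool,
      e1 ((a p.2.1.1 : ℝ) * x) * cf c α p * e1 ((base p.1 : ℝ) * (h * x)) *
      SS (scl cc (∑ i, (sgz p.2.2 * p.2.1.1 i) • H p.1 i))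
        (fun b => ∑ i, ((sgz p.2.2 * p.2.1.1 i : ℤ) : ℝ) * β p.1 i b) L (h * x) := ⟨_, rfl⟩
  have hfc : Continuous f := by
    rw [hf]
    refine continuous_finsetSum _ fun p _ => ?_
    refine Continuous.mul (Continuous.mul (Continuous.mul ?_ continuous_const) ?_) ?_
    · exact continuous_e1.comp (continuous_const.mul continuous_id)
    · exact continuous_e1.comp (continuous_const.mul (continuous_const.mul continuous_id))
    · exact (cont_SS _ _ _).comp (continuous_const.mul continuous_id)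
  have hmain : ∫ x in (0 : ℝ)..1, Q x * |‖f x‖ ^ 2 / (J * (L : ℝ) ^ n) - 1| ≤
      τ + Real.sqrt (5 * τ) := by
    refine main_part_w (d := d) (h := h) (by omega) hQ hJ1 hJ hcc Sp c a rfl hV2 hτ0 hτ1 hVτ
      (fun p => ∑ i, (sgz p.2.2 * p.2.1.1 i) • H p.1 i)
      (fun p b => ∑ i, ((sgz p.2.2 * p.2.1.1 i : ℤ) : ℝ) * β p.1 i b) hAdet0 ?_ hδ0 hKδ hKδ2 hL0
      hL1 hL2 α base f ?_
    · intro p
      rw [hAdet, hJ]
      exact hv p.1 p.2.1.1 p.2.1.2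
    · intro x
      rw [hf]
  refine ⟨s, fun j => (hs j).trans (by omega), ?_⟩
  have hsum : ∀ x : ℝ, ∑ t ∈ Finset.range (R * (4 * L) ^ n), e1 (((t * h + s t : ℕ) : ℝ) * x) =
      f x + g x := by
    intro x
    rw [hpoly x, hf]
    beta_reduce
    rw [f_decomp_w cc L H β Sp c a α (fun j => (base j : ℝ)) x (h * x)]
  simp only [hsum]
  -- the sizes
  obtain ⟨W, hW⟩ : ∃ W : ℝ, W = (L : ℝ) ^ n := ⟨_, rfl⟩
  have hNr : ((R * (4 * L) ^ n : ℕ) : ℝ) = ((R * 4 ^ n : ℕ) : ℝ) * W := by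
    rw [hW]
    push_cast
    rw [mul_pow]
    ring
  have hR1' : (J : ℝ) ≤ ((R * 4 ^ n : ℕ) : ℝ) := by exact_mod_cast hR1
  have hR2' : ((R * 4 ^ n : ℕ) : ℝ) ≤ (1 + τ) * J := by
    have h1 : ((R * 4 ^ n : ℕ) : ℝ) ≤ ((J + 4 ^ n : ℕ) : ℝ) := by exact_mod_cast hR2
    push_cast at h1 ⊢
    linarith
  rw [← hJ] at hgint
  rw [← hW] at hgint hmain hLr
  have hα' : ∑ j, ∑ y : Fin n → Fin L, ∫ x in (0 : ℝ)..1, Q x * Real.sin (Real.pi * x) ^ 2 *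
      ‖e1 ((A ((fun i => (phi cc L (H j) (β j) y i : UnitAddCircle)) + α) : ℝ) * x) -
        PolS Sp c a x ((fun i => (phi cc L (H j) (β j) y i : UnitAddCircle)) + α)‖ ^ 2 ≤
      J * W * τ := by
    refine hα.trans (le_of_eq ?_)
    rw [hW]
    push_cast
    ring
  have hJW : 0 < (J : ℝ) * W := mul_pos hJ0 hLr
  have hN1 : (J : ℝ) * W ≤ ((R * (4 * L) ^ n : ℕ) : ℝ) := by
    rw [hNr]
    exact mul_le_mul_of_nonneg_right hR1' hLr.le
  have hN2 : ((R * (4 * L) ^ n : ℕ) : ℝ) ≤ (1 + τ) * (J * W) := by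
    rw [hNr]
    calc _ ≤ (1 + τ) * J * W := mul_le_mul_of_nonneg_right hR2' hLr.le
      _ = _ := by ring
  have hB : ∫ x in (0 : ℝ)..1, Q x * Real.sin (Real.pi * x) ^ 2 * ‖g x‖ ^ 2 ≤
      2 * τ * ((R * (4 * L) ^ n : ℕ) : ℝ) := by
    have h1 := hgint.trans (add_le_add le_rfl hα')
    refine h1.trans ?_
    nlinarith
  have hcut := weight_cut hQc hQ.nonneg hg hη hη1 hB
  rw [← hσ] at hcut
  have hs5 : 0 ≤ Real.sqrt (5 * τ) := Real.sqrt_nonneg _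
  refine (perturb_w hQc hQ.nonneg hQ.one hη.le hη1 hfc hg hJW hN1
    (τ := τ + Real.sqrt (5 * τ)) (ρ := Real.sqrt (2 * τ / σ)) ?_ (by positivity) hτ5
    (Real.sqrt_nonneg _) hτ2 hmain ?_).trans hτε
  · refine hN2.trans (mul_le_mul_of_nonneg_right ?_ hJW.le)
    linarith
  · rw [Real.sq_sqrt (by positivity), div_mul_eq_mul_div, le_div_iff₀ hσ0]
    linarith

end Vale.Agent.P130B
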